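import Vale.Agent.P071.Grd

/-! The gradient vanishes identically if it vanishes at the centre. -/

namespace Vale.Agent.P071

open MeasureTheory Complex Set Metric Filter Topology
open scoped ComplexConjugate

theorem dsl {F A B : ℂ → ℂ} (h : ∀ z ∈ D, HasW F z (A z) (B z)) (h0 : B 0 = 0) :
    ∃ G A' : ℂ → ℂ, ContinuousOn G D ∧ (∀ z, z * G z = F z - F 0) ∧
      ∀ z ∈ D, z ≠ 0 → HasW G z (A' z) (z⁻¹ * B z) := by
  have m0 : (0 : ℂ) ∈ D := mem_ball_self one_pos
  refine ⟨dslope F 0, fun z => -(z ^ 2)⁻¹ * (F z - F 0) + z⁻¹ * A z,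
    (continuousOn_dslope (isOpen_ball.mem_nhds m0)).mpr
      ⟨continuousOn_of_forall_continuousAt fun z hz => (h z hz).cont,
        ((h 0 m0).of_eq rfl h0.symm).hasDerivAt.differentiableAt⟩,
    fun z => by simpa using sub_smul_dslope F 0 z, fun z hz hz0 => ?_⟩
  refine (((hasW_of (hasDerivAt_inv hz0)).mul ((h z hz).sub (hasW_const (F 0) z))).congr ?_).of_eq
    (by ring) (by ring)
  filter_upwards [dslope_eventuallyEq_slope_of_ne F hz0] with y hy
  simp [hy, slope]

theorem nn_id {x y a b c d : ℂ → ℂ} (hx : L2 x) (hy : L2 y) (ha : L2 a) (hb : L2 b) (hc : L2 c)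
    (hd : IntegrableOn d D) (d0 : ∫ z in D, d z = 0) (e : ∀ z ∈ D, z ≠ 0 →
      x z * conj (x z) + y z * conj (y z) =
        a z * conj (a z) + b z * conj (b z) + 2 * (c z * conj (c z)) + d z) :
    nn x + nn y = nn a + nn b + 2 * nn c := by
  apply ofReal_injective
  push_cast
  have i1 : IntegrableOn (fun z => a z * conj (a z) + b z * conj (b z)) D :=
    (ha.int ha.conj).add (hb.int hb.conj)
  have i2 : IntegrableOn (fun z => a z * conj (a z) + b z * conj (b z) + 2 * (c z * conj (c z))) D :=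
    i1.add ((hc.int hc.conj).const_mul 2)
  simp only [nn_cast]
  rw [← integral_add (hx.int hx.conj) (hy.int hy.conj), int_congr e, integral_add i2 hd,
    integral_add i1 ((hc.int hc.conj).const_mul 2), integral_add (ha.int ha.conj) (hb.int hb.conj),
    integral_const_mul, d0, add_zero]

theorem bd_arg : Bd fun z => z⁻¹ * conj z :=
  ⟨(measurable_inv.mul continuous_conj.measurable).aestronglyMeasurable, 1, fun z _ => by
    rw [norm_mul, norm_conj, norm_inv]; exact inv_mul_le_one_of_le₀ le_rfl (norm_nonneg _)⟩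

namespace Disc

variable {μ : ℝ} {f : ℂ → ℂ} {u : ℂ → ℝ} {w w₁ : ℂ → ℂ} (S : Disc μ f u w w₁)
include S

theorem cw : ContinuousOn w D := continuousOn_of_forall_continuousAt fun z hz => (S.hw z hz).cont

theorem tu : Test (fun z => (u z : ℂ)) w fun z => conj (w z) :=
  ⟨S.hu, by simpa using S.ub, S.mw, S.mw.conj⟩

theorem energy : 4 * nn w = μ * nn fun z => deriv f z * u z := by
  have := S.N _ _ _ S.tu
  apply ofReal_injective
  push_cast
  rw [nn_cast, nn_cast, int_congr (x := fun z => deriv f z * u z * _)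
    (y := fun z => ((‖deriv f z‖ ^ 2 * u z : ℝ) : ℂ) * u z) fun z _ _ => by
      rw [ofReal_mul, nsq_cast]; simp; ring, ← this, ← integral_const_mul, ← integral_const_mul]
  exact int_congr fun z _ _ => by ring

theorem tang (hμ : 0 < μ) {l V T A B : ℂ → ℂ} (hl : Pl l) (hr : ∀ z, conj (l z) = l z)
    (cV : ContinuousOn V D) (dV : ∀ z ∈ D, z ≠ 0 → HasW V z (A z) (B z)) (hB : L2 B) (hT : L2 T)
    (e : ∀ z ∈ D, deriv f z * V z = l z * w z + om z * T z) :
    μ * nn (fun z => deriv f z * V z) ≤ 4 * nn B := by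
  have lx : L2 fun z => deriv f z * V z :=
    ((hl.bd.bmul S.mw).plus (Pl.om.bd.bmul hT)).congr fun z hz _ => e z hz
  refine S.ground hμ lx hB fun Ψ q C r hΨ hr' hd he => ?_
  have ha := hl.mul (hΨ.add hΨ.conj)
  obtain ⟨a1, a2, _, _, _, h1, h2, -, -, -, da⟩ := ha.d2
  have e2 : ∀ z, a1 z = conj (a2 z) := fun z => ((da z).1.unique ((da z).1.conj.congr
    (.of_forall fun y => by simp [hr, add_comm]))).1
  have hN := S.N _ _ _ (ha.test fun z => (da z).1)
  have i1 := lx.int (hΨ.dA hd).1.l2.conj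
  have i2 := hB.int (S.mf.conj.mulb hΨ.bd).conj
  have i3 := S.mw.int h2.l2
  have i4 : IntegrableOn (fun z => ((‖deriv f z‖ ^ 2 * u z : ℝ) : ℂ) *
      (l z * (Ψ z + conj (Ψ z)))) D := by
    simpa [mul_assoc, ← nsq_cast] using S.imean (S.tu.bd'.mul ha.bd)
  have i5 : IntegrableOn (fun z => 2 * (deriv f z * V z * conj (q z) +
      B z * conj (conj (deriv f z) * Ψ z))) D := (i1.add i2).const_mul 2
  have i6 : IntegrableOn (fun z => w z * a2 z - μ / 4 * (((‖deriv f z‖ ^ 2 * u z : ℝ) : ℂ) *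
      (l z * (Ψ z + conj (Ψ z))))) D := i3.sub (i4.const_mul _)
  have key := ibp (Φ := fun z => 2 * (deriv f z * V z * conj (Ψ z)) - w z * (l z * (Ψ z + conj (Ψ z))))
    (B := fun z => 2 * (deriv f z * V z * conj (q z) + B z * conj (conj (deriv f z) * Ψ z)) -
      (w z * a2 z - μ / 4 * (((‖deriv f z‖ ^ 2 * u z : ℝ) : ℂ) * (l z * (Ψ z + conj (Ψ z))))))
    ((continuousOn_const.mul ((S.cp.mul cV).mul hΨ.conj.cont.continuousOn)).sub
      (S.cw.mul ha.cont.continuousOn))
    (fun z hz h0 => (((((hasW_of (S.hp' hz)).mul (dV z hz h0)).mul (hd z).conj).cmul 2).sub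
      ((S.hw z hz).mul (da z).1)).of_eq rfl (by simp; ring)) (i5.sub i6)
    (((hT.mulb hΨ.conj.bd).cmul 2).minus (S.mw.mulb (hl.mul hr').bd)).int1.norm fun z hz => by
      rw [← norm_om hz, ← norm_mul, e z hz]
      refine le_of_eq (congrArg _ ?_)
      linear_combination -(w z * l z) * he z
  rw [integral_sub i5 i6, integral_sub i3 (i4.const_mul _), integral_const_mul, integral_const_mul,
    integral_add i1 i2] at key
  rw [integral_add i3 (S.mw.conj.int h1.l2), show ∫ z in D, conj (w z) * a1 z =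
    conj (∫ z in D, w z * a2 z) by rw [← integral_conj]; simp [e2]] at hN
  have := congrArg re key
  have := congrArg re hN
  simp only [ip]
  simp at *
  linarith

theorem main (hμ : 0 < μ) (h0 : w 0 = 0) {γ γ' κ : ℂ → ℂ} (hγ : Pl γ)
    (dγ : ∀ z, HasDerivAt γ (γ' z) z) (hκ : L2 κ)
    (e : ∀ z, z * κ z = μ / 2 * (deriv f z * u z) + (γ z + z * γ' z)) :
    L2 (fun z => z⁻¹ * w z) ∧
      μ * nn (fun z => om z * (z⁻¹ * w z)) ≤ 2 * nn fun z => om z * κ z := by
  have wγ := fun z => hasW_of (dγ z)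
  have hγ' := (hγ.dA wγ).1
  obtain ⟨α, A, cα, eα, dα⟩ := dsl (F := fun z => 2 * (w z * (deriv f z)⁻¹) - conj (z * γ z))
    (B := fun z => -conj (z * κ z)) (fun z hz => ((((S.hw z hz).mul
      (hasW_of ((S.hp' hz).inv (S.ne z hz)))).cmul 2).sub ((hasW_id z).mul (wγ z)).conj).of_eq rfl (by
        have := S.ne z hz
        rw [e, ofReal_mul, ofReal_mul, nsq_cast]
        simp [map_ofNat]
        field_simp
        ring)) (by simp)
  simp only [h0, zero_mul, mul_zero, map_zero, sub_zero] at eα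
  have e1 : ∀ z ∈ D, 2 * w z = z * (deriv f z * α z) + conj z * (deriv f z * conj (γ z)) := fun z hz => by
    have := S.ne z hz
    rw [mul_left_comm z, eα]
    simp
    field_simp
    ring
  have lb := S.mf.mulb hγ.conj.bd
  have la : L2 fun z => deriv f z * α z := L2.of_z (S.cp.mul cα)
    (((S.mw.cmul 2).minus (Pl.cj.bd.bmul lb)).congr fun z hz _ => by rw [e1 z hz]; ring)
  have o := Pl.om.bd
  have e2 : ∀ z ∈ D, z ≠ 0 → 2 * (z⁻¹ * w z) = deriv f z * α z + z⁻¹ * conj z * (deriv f z * conj (γ z)) :=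
    fun z hz h0 => by rw [mul_left_comm, e1 z hz]; field_simp
  refine ⟨((la.plus (bd_arg.bmul lb)).cmul (1 / 2)).congr fun z hz h0 => by
    rw [← e2 z hz h0]; ring, ?_⟩
  have lP := lb.plus ((Pl.id.mul .id).bd.bmul la)
  have lQ := la.plus ((Pl.cj.mul .cj).bd.bmul lb)
  have lX := hγ'.l2.minus ((Pl.id.mul .cj).bd.bmul hκ)
  have lY := hκ.minus (Pl.cj.mul (((Pl.const 2).mul hγ).add (Pl.id.mul hγ'))).l2
  have lY' := bd_arg.bmul lY.conj
  have t : ∀ c : ℂ, μ * nn (fun z => conj c * (deriv f z * conj (γ z) + z * z * (deriv f z * α z)) +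
      c * (deriv f z * α z + conj z * conj z * (deriv f z * conj (γ z)))) ≤
      4 * nn fun z => conj c * conj (γ' z - z * conj z * κ z) -
        c * (z⁻¹ * conj z * conj (κ z - conj z * (2 * γ z + z * γ' z))) := fun c => by
    have := S.tang hμ (((Pl.const 2).mul ((Pl.const (conj c)).mul .id)).add
      ((Pl.const 2).mul ((Pl.const c).mul .cj))) (fun z => by simp [add_comm, map_ofNat])
      (V := fun z => conj c * (conj (γ z) + z * z * α z) + c * (α z + conj z * conj z * conj (γ z)))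
      (by have := hγ.cont; fun_prop)
      (fun z hz h0 => ((((wγ z).conj.add (((hasW_id z).mul (hasW_id z)).mul (dα z hz h0))).cmul
        (conj c)).add (((dα z hz h0).add (((hasW_conj z).mul (hasW_conj z)).mul (wγ z).conj)).cmul
        c)).of_eq rfl (by simp [map_ofNat]; field_simp; ring))
      ((lX.conj.cmul (conj c)).minus (lY'.cmul c)) ((lb.cmul (conj c)).plus (la.cmul c))
      fun z hz => by rw [om]; linear_combination -(conj c * z + c * conj z) * e1 z hz
    exact le_of_eq_of_le (congrArg (μ * ·) (nn_congr fun z _ _ => by congr 2; ring)) this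
  have t1 := t 1
  have t2 := t I
  simp only [map_one, one_mul] at t1
  have n1 : ∀ a b : ℂ, conj I * a + I * b = -I * (a - b) := fun a b => by rw [conj_I]; ring
  have n2 : ∀ a b : ℂ, conj I * a - I * b = -I * (a + b) := fun a b => by rw [conj_I]; ring
  simp only [n1, n2, nn_cmul] at t2
  simp only [norm_neg, norm_I, one_pow, one_mul] at t2
  have p1 := nn_par lP lQ
  have p2 := nn_par lX.conj lY'
  rw [nn_conj, nn_congr (x := fun z => z⁻¹ * conj z * _)
    (y := fun z => κ z - conj z * (2 * γ z + z * γ' z)) fun z _ h0 => by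
      simp only [norm_mul, norm_conj, norm_inv]
      rw [inv_mul_cancel₀ (norm_ne_zero_iff.mpr h0), one_mul]] at p2
  have q1 := nn_id lP lQ (o.bmul la) (o.bmul lb) (S.mw.cmul 2) (Pl.const 0).int (by simp)
    fun z hz _ => by
      rw [e1 z hz]
      simp only [map_mul, map_add, conj_om, conj_conj]
      rw [om]
      ring
  obtain ⟨_, _, A₁, E, B₂, -, -, -, hE, -, a⟩ := hγ.d2
  have e3 := funext fun z => ((a z).1.unique (wγ z)).1
  have e4 := funext fun z => ((a z).1.unique (wγ z)).2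
  subst e3 e4
  have e5 : ∀ z, E z = 0 := fun z => ((a z).2.2.unique (hasW_const 0 z)).1
  have d1 := fun z => (hasW_om z).mul ((wγ z).conj.mul (((hasW_om z).mul (a z).2.1).sub
    (((hasW_conj z).cmul 2).mul (wγ z))))
  have p3 := hγ.conj.mul ((Pl.om.mul hγ').sub (((Pl.const 2).mul .cj).mul hγ))
  have q2 := nn_id lX lY (o.bmul hκ) (Bd.const 0).l2 ((S.mf.mulb S.tu.bd').cmul (μ / 2))
    ((Pl.om.mul p3).dA d1).2.int (ibpP p3 (fun z => rfl) d1).2 fun z hz _ => by
      rw [← sub_eq_iff_eq_add.mpr (e z), e5]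
      simp only [map_mul, map_add, map_sub, conj_om, conj_conj, map_ofNat, map_zero]
      rw [om]
      ring
  have q3 := nn_add_le (o.bmul la) (bd_arg.bmul (o.bmul lb))
  rw [nn_congr (y := fun z => 2 * (om z * (z⁻¹ * w z))) fun z hz h0 => by
    rw [mul_left_comm 2, e2 z hz h0]; congr 2; ring, nn_congr (x := fun z => z⁻¹ * conj z * _)
    (y := fun z => om z * (deriv f z * conj (γ z))) fun z _ h0 => by
      simp only [norm_mul, norm_conj, norm_inv]
      rw [inv_mul_cancel₀ (norm_ne_zero_iff.mpr h0), one_mul], nn_cmul] at q3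
  have q4 := S.energy
  rw [nn_cmul, show ‖(μ / 2 : ℂ)‖ ^ 2 = μ ^ 2 / 4 by simp [div_pow]; norm_num,
    show nn (fun _ => 0) = 0 by simp [nn]] at q2
  rw [nn_cmul] at q1
  simp only [Complex.norm_ofNat] at q1 q3
  have q5 := mul_le_mul_of_nonneg_left q3 hμ.le
  have q6 := congrArg (μ * ·) q1
  have q7 := congrArg (μ * ·) p1
  have q8 := congrArg (μ * ·) q4
  nlinarith

theorem core (hμ : 0 < μ) (h0 : w 0 = 0) : ∀ z ∈ D, w z = 0 := by
  obtain ⟨θ, hθ1, hθ⟩ := S.theta hμ
  obtain ⟨κ, A, cκ, eκ, dκ⟩ := dsl (F := fun z => μ / 2 * (deriv f z * u z))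
    (fun z hz => ((hasW_of (S.hp' hz)).mul (S.hu z hz)).cmul _) (by simp [h0])
  set c := μ / 2 * (deriv f 0 * u 0)
  have lκ : L2 κ := L2.of_z cκ (by
    simp only [eκ]; exact ((S.mf.mulb S.tu.bd').cmul _).minus (Bd.const _).l2)
  have lw := (S.main hμ h0 (.const (-c)) (fun z => hasDerivAt_const z _) lκ fun z => by
    rw [eκ]; ring).1
  have lM := Pl.om.bd.bmul lw
  have hM : nn (fun z => om z * (z⁻¹ * w z)) ≤ 0 := by
    refine nonpos_of_mul_nonpos_left (b := (θ - 1) * μ ^ 2) ?_ (by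
      have := sub_pos.mpr hθ1; positivity)
    refine le_of_forall_pos_le_add fun ε hε => ?_
    have e1 : ∀ z ∈ D, z ≠ 0 → ‖om z * (μ / 2 * (z⁻¹ * conj (w z)))‖ ^ 2 =
        ‖(μ / 2 : ℂ) * (om z * (z⁻¹ * w z))‖ ^ 2 := fun z _ _ => by
      simp only [norm_mul, norm_conj]; ring
    obtain ⟨h, hh, h1⟩ := S.horm hμ hθ1 hθ lκ cκ (y := fun z => μ / 2 * (z⁻¹ * conj (w z)))
      (fun z hz hz0 => (dκ z hz hz0).of_eq rfl (by ring))
      (((bd_arg.bmul lM.conj).cmul (μ / 2)).congr fun z _ hz0 => by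
        have : conj z ≠ 0 := by simpa using hz0
        simp [conj_om]
        field_simp) (half_pos hε)
    obtain ⟨γ, γ', hγ, dγ, eγ⟩ := (hh.cmul (-1)).prim
    have h2 := (S.main hμ h0 (hγ.pl.sub (.const c)) (fun z => (dγ z).sub_const c)
      (lκ.minus hh.pl.l2) fun z => by linear_combination eκ z - eγ z).2
    rw [nn_congr e1, nn_cmul, show ‖(μ / 2 : ℂ)‖ ^ 2 = μ ^ 2 / 4 by simp [div_pow]; norm_num] at h1
    have h3 := mul_le_mul_of_nonneg_left h2 (show 0 ≤ (1 + θ) * μ by positivity)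
    nlinarith
  have h1 := (integral_eq_zero_iff_of_nonneg (fun _ => by positivity) lM.sq).mp
    (le_antisymm hM (nn_nonneg _))
  refine Measure.eqOn_open_of_ae_eq (μ := volume) (g := fun _ => 0) ?_ isOpen_ball S.cw
    continuousOn_const
  filter_upwards [h1, ae_D (P := fun z => z ∈ D ∧ z ≠ 0) fun z a b => ⟨a, b⟩] with z h1 hz
  have : om z ≠ 0 := norm_pos_iff.mp (norm_om hz.1 ▸ mem_D.mp hz.1)
  simpa [this, hz.2] using h1

end Disc

end Vale.Agent.P071
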