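import Mathlib

/-! The Neumann problem in a plane domain; the plane is `ℂ` with Lebesgue measure. -/

namespace Vale.Agent.P071

open MeasureTheory

/-- `v` lies in `H¹(Ω)` with weak gradient `g`. -/
def H1 (Ω : Set ℂ) (v : ℂ → ℝ) (g : ℂ → ℂ) : Prop :=
  MemLp v 2 (volume.restrict Ω) ∧ MemLp g 2 (volume.restrict Ω) ∧
  ∀ φ : ℂ → ℝ, ContDiff ℝ (⊤ : ℕ∞) φ → HasCompactSupport φ → tsupport φ ⊆ Ω → ∀ e : ℂ,
    ∫ z in Ω, v z * fderiv ℝ φ z e = -∫ z in Ω, inner ℝ (g z) e * φ z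

/-- the first positive Neumann eigenvalue, as the infimum of the Rayleigh quotient -/
noncomputable def mu1 (Ω : Set ℂ) : ℝ :=
  sInf {r : ℝ | ∃ v g, H1 Ω v g ∧ ∫ z in Ω, v z = 0 ∧ ∫ z in Ω, v z ^ 2 ≠ 0 ∧
    r = (∫ z in Ω, ‖g z‖ ^ 2) / ∫ z in Ω, v z ^ 2}

/-- `u` is a weak solution of `-Δ u = μ₁ u` with vanishing normal derivative. -/
def Eig (Ω : Set ℂ) (u : ℂ → ℝ) : Prop :=
  ∃ g, H1 Ω u g ∧ ∀ v h, H1 Ω v h →
    ∫ z in Ω, inner ℝ (g z) (h z) = mu1 Ω * ∫ z in Ω, u z * v z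

end Vale.Agent.P071
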