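import Vale.Agent.P071.Poly

/-! The Dirichlet inequality, the area bound and the ground state inequality. -/

namespace Vale.Agent.P071

open MeasureTheory Complex Set Metric Filter Topology
open scoped ComplexConjugate

theorem nsq_cast (a : ℂ) : ((‖a‖ ^ 2 : ℝ) : ℂ) = a * conj a := by
  rw [mul_conj, normSq_eq_norm_sq]

theorem Test.bd' {a A B : ℂ → ℂ} (h : Test a A B) : Bd a :=
  ⟨(continuousOn_of_forall_continuousAt fun z hz => (h.w z hz).cont).aestronglyMeasurable mD, h.bd⟩

theorem Test.cont {a A B : ℂ → ℂ} (h : Test a A B) : ContinuousOn a D :=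
  continuousOn_of_forall_continuousAt fun z hz => (h.w z hz).cont

theorem Test.add {a A B a' A' B' : ℂ → ℂ} (h : Test a A B) (h' : Test a' A' B') (c : ℂ) :
    Test (fun z => a z + c * a' z) (fun z => A z + c * A' z) (fun z => B z + c * B' z) :=
  ⟨fun z hz => (h.w z hz).add ((h'.w z hz).cmul c), (h.bd'.add ((Bd.const c).mul h'.bd')).2,
    h.mA.plus (h'.mA.cmul c), h.mB.plus (h'.mB.cmul c)⟩

theorem test_one : Test (fun _ => 1) (fun _ => 0) (fun _ => 0) :=
  ⟨fun z _ => hasW_const 1 z, (Bd.const 1).2, (Bd.const 0).l2, (Bd.const 0).l2⟩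

theorem Pl.test {a A B : ℂ → ℂ} (h : Pl a) (hd : ∀ z, HasW a z (A z) (B z)) : Test a A B :=
  ⟨fun z _ => hd z, h.bd.2, (h.dA hd).1.l2, (h.dA hd).2.l2⟩

theorem nn_add1 {x y : ℂ → ℂ} (hx : L2 x) (hy : L2 y) :
    nn (fun z => x z + y z) = nn x + 2 * ip x y + nn y := by
  simpa using nn_add hx hy 1

theorem nn_cast (x : ℂ → ℂ) : ((nn x : ℝ) : ℂ) = ∫ z in D, x z * conj (x z) := by
  rw [nn, ← integral_complex_ofReal]; simp only [← nsq_cast]

namespace Disc

variable {μ : ℝ} {f : ℂ → ℂ} {u : ℂ → ℝ} {w w₁ : ℂ → ℂ} (S : Disc μ f u w w₁)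
include S

theorem hp {z : ℂ} (hz : z ∈ D) : HasDerivAt f (deriv f z) z :=
  (S.hf.differentiableAt (isOpen_ball.mem_nhds hz)).hasDerivAt

theorem hp' {z : ℂ} (hz : z ∈ D) : HasDerivAt (deriv f) (deriv (deriv f) z) z :=
  ((S.hf.deriv isOpen_ball).differentiableAt (isOpen_ball.mem_nhds hz)).hasDerivAt

theorem cp : ContinuousOn (deriv f) D := (S.hf.deriv isOpen_ball).continuousOn

theorem tf : Test f (deriv f) (fun _ => 0) :=
  ⟨fun _ hz => hasW_of (S.hp hz), S.fb, S.mf, (Bd.const 0).l2⟩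

theorem area_pos : 0 < nn (deriv f) := by
  have h0 : (0 : ℂ) ∈ D := mem_ball_self one_pos
  refine lt_of_lt_of_le ?_ (S.berg 0 h0)
  have := norm_pos_iff.mpr (S.ne 0 h0)
  simp only [norm_zero]
  positivity

/-- the mean for the area measure -/
noncomputable def mean (f a : ℂ → ℂ) : ℂ := ∫ z in D, deriv f z * conj (deriv f z) * a z

theorem imean {a : ℂ → ℂ} (h : Bd a) :
    IntegrableOn (fun z => deriv f z * conj (deriv f z) * a z) D := by
  simpa [mul_assoc] using S.mf.int (S.mf.conj.mulb h)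

theorem mean_add {a b : ℂ → ℂ} (h : Bd a) (h' : Bd b) (c : ℂ) :
    mean f (fun z => a z + c * b z) = mean f a + c * mean f b := by
  simp only [mean]
  rw [← integral_const_mul, ← integral_add (S.imean h) ((S.imean h').const_mul c)]
  exact int_congr fun z _ _ => by ring

omit S in
theorem mean_one : mean f (fun _ => 1) = nn (deriv f) := by simp [mean, nn_cast]

theorem Pn {a A B : ℂ → ℂ} (h : Test a A B) (h0 : mean f a = 0) :
    μ * nn (fun z => deriv f z * a z) ≤ 2 * (nn A + nn B) := by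
  have := S.P a A B h (by simp only [nsq_cast]; exact h0)
  rw [integral_add h.mA.sq h.mB.sq] at this
  simpa only [nn, norm_mul, mul_pow] using this

theorem dir_aux {b A B : ℂ → ℂ} (h : Test b A B) {C : ℝ}
    (hb : ∀ z ∈ D, ‖b z‖ ≤ (1 - ‖z‖ ^ 2) * C) {l : ℝ} (hl : 4 * l ^ 2 < μ) :
    4 * l ^ 2 * nn (fun z => deriv f z * b z) ≤ 2 * (nn A + nn B) := by
  set p := deriv f with hp
  let e : ℂ → ℂ := fun z => exp (I * l * (f z + conj (f z)))
  have ne : ∀ z, ‖e z‖ = 1 := fun z => by
    simp only [e, add_conj, norm_exp]; simp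
  have de : ∀ z ∈ D, HasW e z (I * l * (p z * e z)) (I * l * (conj (p z) * e z)) := fun z hz =>
    ((((hasW_of (S.hp hz)).add (hasW_of (S.hp hz)).conj).cmul (I * l)).comp
      (hasDerivAt_exp _)).of_eq (by simp [e]; ring) (by simp [e]; ring)
  have ce : ContinuousOn e D := continuousOn_of_forall_continuousAt fun z hz => (de z hz).cont
  have be : Bd e := ⟨ce.aestronglyMeasurable mD, 1, fun z _ => (ne z).le⟩
  have te : Test e _ _ := ⟨de, be.2, (S.mf.mulb be).cmul _, (S.mf.conj.mulb be).cmul _⟩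
  have n1 : nn (fun z => p z * e z) = nn p := nn_congr fun z _ _ => by simp [ne]
  have n2 : nn (fun z => conj (p z) * e z) = nn p := nn_congr fun z _ _ => by simp [ne]
  have nl : ‖I * l‖ ^ 2 = l ^ 2 := by simp
  have hA := S.area_pos
  have hM : mean f e ≠ 0 := fun h0 => by
    have := S.Pn te h0
    rw [nn_cmul, nn_cmul, n1, n2, nl] at this
    nlinarith
  set τ := -mean f b / mean f e
  have key := S.Pn (h.add te τ) (by rw [S.mean_add h.bd' be]; simp only [τ]; field_simp; ring)
  have lp : L2 fun z => τ * (p z * e z) := (S.mf.mulb be).cmul _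
  have lb := S.mf.mulb h.bd'
  have hX := nn_add1 lb lp
  have hG : IntegrableOn (fun z => C * ‖τ * (I * l * p z)‖) D :=
    ((S.mf.cmul _).cmul _).int1.norm.const_mul _
  have c1 : ip A (fun z => τ * (I * l * (p z * e z))) =
      l ^ 2 * ip (fun z => p z * b z) fun z => τ * (p z * e z) := by
    have := ibpA (Φ := fun z => b z * conj (τ * (I * l * (p z * e z))))
      (h.cont.mul (continuous_conj.comp_continuousOn (((S.cp.mul ce).const_smul
        (I * l)).const_smul τ)))
      (fun z hz _ => ((h.w z hz).mul ((((hasW_of (S.hp' hz)).mul (de z hz)).cmul (I * l)).cmul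
        τ).conj).of_eq (A' := A z * conj (τ * (I * l * (p z * e z))) -
          l ^ 2 * (p z * b z * conj (τ * (p z * e z)))) (by
          simp only [map_mul, map_add, conj_conj, conj_I, conj_ofReal, map_zero]
          linear_combination (-(b z) * conj τ * l ^ 2 * conj (p z) * p z * conj (e z)) * I_mul_I) rfl)
      ((h.mA.int (te.mA.cmul τ).conj).sub ((lb.int lp.conj).const_mul _)) hG fun z hz => by
        simp only [norm_mul, norm_conj, ne, mul_one]
        rw [← mul_assoc (1 - ‖z‖ ^ 2)]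
        gcongr
        exact hb z hz
    rw [integral_sub (h.mA.int (te.mA.cmul τ).conj) ((lb.int lp.conj).const_mul _),
      integral_const_mul, sub_eq_zero] at this
    rw [ip, ip, this, ← ofReal_pow, re_ofReal_mul]
  have c2 : ip B (fun z => τ * (I * l * (conj (p z) * e z))) =
      l ^ 2 * ip (fun z => p z * b z) fun z => τ * (p z * e z) := by
    have := ibp (Φ := fun z => b z * conj (τ * (I * l * (conj (p z) * e z))))
      (h.cont.mul (continuous_conj.comp_continuousOn ((((continuous_conj.comp_continuousOn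
        S.cp).mul ce).const_smul (I * l)).const_smul τ)))
      (fun z hz _ => ((h.w z hz).mul ((((hasW_of (S.hp' hz)).conj.mul (de z hz)).cmul (I * l)).cmul
        τ).conj).of_eq (B' := B z * conj (τ * (I * l * (conj (p z) * e z))) -
          l ^ 2 * (p z * b z * conj (τ * (p z * e z)))) rfl (by
          simp only [map_mul, map_add, conj_conj, conj_I, conj_ofReal, map_zero]
          linear_combination (-(b z) * conj τ * l ^ 2 * conj (p z) * p z * conj (e z)) * I_mul_I))
      ((h.mB.int (te.mB.cmul τ).conj).sub ((lb.int lp.conj).const_mul _)) hG fun z hz => by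
        simp only [norm_mul, norm_conj, ne, mul_one]
        rw [← mul_assoc (1 - ‖z‖ ^ 2)]
        gcongr
        exact hb z hz
    rw [integral_sub (h.mB.int (te.mB.cmul τ).conj) ((lb.int lp.conj).const_mul _),
      integral_const_mul, sub_eq_zero] at this
    rw [ip, ip, this, ← ofReal_pow, re_ofReal_mul]
  rw [nn_add1 h.mA (te.mA.cmul τ), nn_add1 h.mB (te.mB.cmul τ), c1, c2, nn_cmul, nn_cmul, nn_cmul,
    nn_cmul, n1, n2, nl, nn_congr (y := fun z => p z * b z + τ * (p z * e z))
      fun z _ _ => by congr 2; ring] at key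
  rw [nn_cmul, n1] at hX
  have := mul_le_mul_of_nonneg_right hl.le (nn_nonneg fun z => p z * b z + τ * (p z * e z))
  rw [hX] at this key
  nlinarith

theorem dir {b A B : ℂ → ℂ} (h : Test b A B) {C : ℝ}
    (hb : ∀ z ∈ D, ‖b z‖ ≤ (1 - ‖z‖ ^ 2) * C) :
    μ * nn (fun z => deriv f z * b z) ≤ 2 * (nn A + nn B) := by
  refine le_of_forall_lt_imp_le_of_dense fun c hc => ?_
  set N := nn fun z => deriv f z * b z
  have hN : 0 ≤ N := nn_nonneg _
  rcases le_or_gt c 0 with h0 | h0
  · exact h0.trans (by have := nn_nonneg A; have := nn_nonneg B; positivity)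
  have hN' : 0 < N := by
    by_contra hh
    rw [le_antisymm (not_lt.mp hh) hN] at hc
    linarith
  have e : 4 * (Real.sqrt (c / N) / 2) ^ 2 = c / N := by
    rw [div_pow, Real.sq_sqrt (by positivity)]; ring
  have := S.dir_aux h hb (l := Real.sqrt (c / N) / 2) (by rwa [e, div_lt_iff₀ hN'])
  rwa [e, div_mul_cancel₀ _ hN'.ne'] at this

theorem center {a : ℂ → ℂ} (h : Bd a) :
    mean f (fun z => a z + -(mean f a / nn (deriv f)) * 1) = 0 := by
  have : ((nn (deriv f) : ℝ) : ℂ) ≠ 0 := by exact_mod_cast S.area_pos.ne'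
  rw [S.mean_add h (Bd.const 1), mean_one]
  field_simp
  ring

theorem moment (hμ : 0 < μ) : ∃ c : ℂ, μ * nn (fun z => deriv f z * (f z - c)) < 2 * nn (deriv f) := by
  set p := deriv f with hp
  have hA := S.area_pos
  refine ⟨mean f f / nn p, ?_⟩
  have tF := S.tf.add test_one (-(mean f f / nn p))
  have mF := S.center S.tf.bd'
  simp only [mul_one, mul_zero, add_zero, ← sub_eq_add_neg, ← hp] at tF mF
  set F := fun z => f z - mean f f / nn p
  have bo := Pl.om.bd
  have tG : Test (fun z => om z * F z) (fun z => om z * p z - conj z * F z) fun z => -z * F z :=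
    ⟨fun z hz => ((hasW_om z).mul (tF.w z hz)).of_eq (by ring) (by ring), (bo.mul tF.bd').2,
      (bo.bmul S.mf).minus (Pl.cj.bd.mul tF.bd').l2,
      ((Bd.of_cont continuous_neg).mul tF.bd').l2⟩
  have tH := tG.add test_one (-(mean f (fun z => om z * F z) / nn p))
  have mH := S.center tG.bd'
  set m := -(mean f (fun z => om z * F z) / nn p)
  simp only [mul_one, mul_zero, add_zero] at tH mH
  have lF := S.mf.mulb tF.bd'
  have lH := S.mf.mulb tH.bd'
  have iJ : IntegrableOn (fun z => (1 - ‖z‖ ^ 2) * ‖p z * F z‖ ^ 2) D :=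
    lF.sq.bdd_mul (c := 1) (by fun_prop) (ae_D fun z hz _ => by
      rw [Real.norm_of_nonneg (mem_D.mp hz).le]; nlinarith [norm_nonneg z])
  have c1 : ip p (fun z => om z * p z - conj z * F z) = 0 := by
    have := (ibp_om (Ξ := fun z => p z * conj (F z))
      (S.cp.mul (continuous_conj.comp_continuousOn tF.cont))
      (fun z hz _ => (hasW_of (S.hp' hz)).mul (tF.w z hz).conj)
      (S.mf.mulb tF.bd'.conj).int1).1 (by simpa [mul_assoc] using (bo.bmul S.mf).int S.mf.conj)
    rw [ip, int_congr (y := fun z => om z * (0 * conj (F z) + p z * conj (p z)) -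
      z * (p z * conj (F z))) fun z _ _ => by simp [conj_om]; ring, this, zero_re]
  have c2 : ip (fun z => p z * F z) (fun z => p z * (om z * F z + m)) =
      ∫ z in D, (1 - ‖z‖ ^ 2) * ‖p z * F z‖ ^ 2 := by
    rw [ip, int_congr (y := fun z => (((1 - ‖z‖ ^ 2) * ‖p z * F z‖ ^ 2 : ℝ) : ℂ) +
      conj m * (p z * conj (p z) * F z)) fun z _ _ => by
        rw [ofReal_mul, ← om_eq, nsq_cast]; simp [conj_om]; ring,
      integral_add (g := fun z => conj m * (p z * conj (p z) * F z))
        (f := fun z => (((1 - ‖z‖ ^ 2) * ‖p z * F z‖ ^ 2 : ℝ) : ℂ)) iJ.ofReal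
        ((S.imean tF.bd').const_mul _), integral_const_mul, integral_complex_ofReal]
    simp only [mean, ← hp] at mF
    simp [mF]
  set J := ∫ z in D, (1 - ‖z‖ ^ 2) * ‖p z * F z‖ ^ 2
  have hJ0 : ∀ᵐ z ∂(volume.restrict D), 0 ≤ (1 - ‖z‖ ^ 2) * ‖p z * F z‖ ^ 2 :=
    ae_D fun z hz _ => mul_nonneg (mem_D.mp hz).le (by positivity)
  rcases (integral_nonneg_of_ae hJ0 : 0 ≤ J).eq_or_lt with hJ | hJ
  · have h1 := (integral_eq_zero_iff_of_nonneg_ae hJ0 iJ).mp hJ.symm
    have : nn (fun z => p z * F z) = 0 := integral_eq_zero_of_ae (by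
      filter_upwards [h1, ae_restrict_mem mD] with z h1 hz
      exact (mul_eq_zero.mp h1).resolve_left (mem_D.mp hz).ne')
    rw [this]; linarith
  by_contra hc
  set K := nn (fun z => om z * p z - conj z * F z) + nn fun z => -z * F z
  have hK : 0 ≤ K := add_nonneg (nn_nonneg _) (nn_nonneg _)
  have ht : 0 < μ * J / (2 * (K + 1)) := by positivity
  set t := μ * J / (2 * (K + 1)) with htd
  have key := S.Pn (tF.add tH t) (by rw [S.mean_add tF.bd' tH.bd', mF, mH]; simp)
  rw [nn_congr (y := fun z => p z * F z + t * (p z * (om z * F z + m))) fun z _ _ => by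
    congr 2; ring, nn_add lF lH, nn_add S.mf tG.mA, c1, c2] at key
  simp only [zero_add, nn_cmul, norm_real, Real.norm_eq_abs, sq_abs] at key
  have h1 := nn_nonneg fun z => p z * (om z * F z + m)
  have h2 : t * (2 * (K + 1)) = μ * J := by rw [htd]; field_simp
  have h3 : μ * J ≤ t * K := by
    refine le_of_mul_le_mul_left ?_ (show 0 < 2 * t by positivity)
    have : 0 ≤ μ * (t ^ 2 * nn fun z => p z * (om z * F z + m)) := by positivity
    simp only [K]
    nlinarith
  nlinarith

theorem theta (hμ : 0 < μ) : ∃ θ : ℝ, 1 < θ ∧ ∀ z ∈ D,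
    θ * μ * (‖deriv f z‖ ^ 2 * (1 - ‖z‖ ^ 2) ^ 2) ≤ 4 := by
  obtain ⟨c, hc⟩ := S.moment hμ
  have h1 := S.mom c
  have hA := S.area_pos
  have hπ := Real.pi_pos
  simp only [nn, norm_mul, mul_pow] at hc hA
  set a := ∫ z in D, ‖deriv f z‖ ^ 2
  have h2 : μ * a < 4 * Real.pi := by
    refine lt_of_mul_lt_mul_left ?_ hA.le
    nlinarith [mul_le_mul_of_nonneg_left h1 hμ.le, mul_lt_mul_of_pos_left hc hπ]
  refine ⟨4 * Real.pi / (μ * a), (one_lt_div (by positivity)).mpr h2, fun z hz => ?_⟩
  have := S.berg z hz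
  rw [show 4 * Real.pi / (μ * a) * μ * (‖deriv f z‖ ^ 2 * (1 - ‖z‖ ^ 2) ^ 2) =
    4 * (Real.pi * (‖deriv f z‖ ^ 2 * (1 - ‖z‖ ^ 2) ^ 2)) / a by field_simp, div_le_iff₀ hA]
  linarith

end Disc

end Vale.Agent.P071
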