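import Vale.Agent.P071.Spec

/-! The Riemann mapping theorem for bounded simply connected domains. -/

namespace Vale.Agent.P071

open Complex Set Metric Filter Topology
open scoped ComplexConjugate

namespace Rm

theorem lip {Ω : Set ℂ} {F : ℂ → ℂ} (hm : MapsTo F Ω D) {x : ℂ}
    {r : ℝ} (hr : 0 < r) (hs : ball x r ⊆ Ω) : MapsTo F (ball x r) (closedBall (F x) 2) := by
  intro y hy
  have a := mem_ball_zero_iff.1 (hm (hs hy))
  have b := mem_ball_zero_iff.1 (hm (hs (mem_ball_self hr)))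
  rw [mem_closedBall, dist_eq_norm]
  exact (norm_sub_le _ _).trans (by linarith)

theorem montel {Ω : Set ℂ} (hΩ : IsOpen Ω) (F : ℕ → ℂ → ℂ) (hd : ∀ n, DifferentiableOn ℂ (F n) Ω)
    (hm : ∀ n, MapsTo (F n) Ω D) (U : Ultrafilter ℕ) :
    ∃ g, TendstoLocallyUniformlyOn F g U Ω := by
  have h : ∀ z, ∃ w, z ∈ Ω → Tendsto (fun n => F n z) U (𝓝 w) := fun z => by
    by_cases hz : z ∈ Ω
    · obtain ⟨w, -, hw⟩ := (isCompact_closedBall (0 : ℂ) 1).ultrafilter_le_nhds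
        (U.map fun n => F n z) (le_principal_iff.2 (mem_map.2 (Eventually.of_forall fun n =>
          ball_subset_closedBall (hm n hz))))
      exact ⟨w, fun _ => hw⟩
    · exact ⟨0, fun h => (hz h).elim⟩
  choose g hg using h
  refine ⟨g, Metric.tendstoLocallyUniformlyOn_iff.2 fun ε hε x hx => ?_⟩
  obtain ⟨r, hr, hs⟩ := Metric.isOpen_iff.1 hΩ x hx
  have L : ∀ n, ∀ y ∈ ball x r, dist (F n y) (F n x) ≤ 2 / r * dist y x := fun n y hy =>
    dist_le_div_mul_dist_of_mapsTo_ball ((hd n).mono hs) (lip (hm n) hr hs) hy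
  have L' : ∀ y ∈ ball x r, dist (g y) (g x) ≤ 2 / r * dist y x := fun y hy =>
    le_of_tendsto' ((hg y (hs hy)).dist (hg x hx)) fun n => L n y hy
  refine ⟨ball x (min r (ε * r / 8)), mem_nhdsWithin_of_mem_nhds (ball_mem_nhds _ (by positivity)),
    ?_⟩
  filter_upwards [Metric.tendsto_nhds.1 (hg x hx) (ε / 2) (by positivity)] with n hn y hy
  rw [mem_ball, lt_min_iff] at hy
  have a := L n y hy.1
  have b := L' y hy.1
  have c : 2 / r * dist y x ≤ ε / 4 := by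
    rw [div_mul_eq_mul_div, div_le_iff₀ hr]; linarith [hy.2]
  have d := dist_triangle4 (g y) (g x) (F n x) (F n y)
  rw [dist_comm (g x), dist_comm (F n x) (F n y)] at d
  linarith

theorem hurwitz {V : Set ℂ} (hV : IsOpen V) {F : ℕ → ℂ → ℂ} {g : ℂ → ℂ} {U : Filter ℕ} [U.NeBot]
    (hd : ∀ n, DifferentiableOn ℂ (F n) V) (hne : ∀ n, ∀ z ∈ V, F n z ≠ 0)
    (ht : TendstoLocallyUniformlyOn F g U V) {a : ℂ} (ha : a ∈ V) (h0 : g a = 0) :
    g =ᶠ[𝓝 a] 0 := by
  have gd := ht.differentiableOn (.of_forall hd) hV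
  refine ((gd.analyticOnNhd hV a ha).eventually_eq_zero_or_eventually_ne_zero).resolve_right
    fun h => ?_
  obtain ⟨r, hr, hs⟩ := Metric.nhds_basis_closedBall.eventually_iff.1
    ((eventually_nhdsWithin_iff.1 h).and (hV.mem_nhds ha))
  have hsV : closedBall a r ⊆ V := fun z hz => (hs hz).2
  obtain ⟨b, hb, hmin⟩ := (isCompact_sphere a r).exists_isMinOn (NormedSpace.sphere_nonempty.2 hr.le)
    (gd.continuousOn.mono (sphere_subset_closedBall.trans hsV)).norm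
  have hδ : 0 < ‖g b‖ := norm_pos_iff.2 ((hs (sphere_subset_closedBall hb)).1 (by
    rintro rfl; simp at hb; exact hr.ne hb))
  have hu := (tendstoLocallyUniformlyOn_iff_forall_isCompact hV).1 ht _ hsV (isCompact_closedBall a r)
  obtain ⟨n, hn⟩ := (Metric.tendstoUniformlyOn_iff.1 hu (‖g b‖ / 2) (by positivity)).exists
  have k : ‖(F n a)⁻¹‖ ≤ (‖g b‖ / 2)⁻¹ := by
    refine norm_le_of_forall_mem_frontier_norm_le (f := fun z => (F n z)⁻¹) (U := ball a r)
      isBounded_ball (DifferentiableOn.diffContOnCl ?_) (fun z hz => ?_)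
      (subset_closure (mem_ball_self hr))
    · rw [closure_ball a hr.ne']
      exact ((hd n).mono hsV).inv fun z hz => hne n z (hsV hz)
    · rw [frontier_ball a hr.ne'] at hz
      have a1 := hn z (sphere_subset_closedBall hz)
      have a2 : ‖g b‖ ≤ ‖g z‖ := hmin hz
      have a3 := norm_sub_norm_le (g z) (F n z)
      rw [dist_eq_norm] at a1
      rw [norm_inv]
      exact inv_anti₀ (by positivity) (by linarith)
  have a1 := hn a (mem_closedBall_self hr.le)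
  rw [h0, dist_zero_left] at a1
  rw [norm_inv, inv_le_inv₀ (norm_pos_iff.2 (hne n a ha)) (by positivity)] at k
  linarith

/-- the Moebius maps of the disc -/
noncomputable def mb (c z : ℂ) : ℂ := (z - c) / (1 - conj c * z)

theorem den_ne {c z : ℂ} (hc : ‖c‖ < 1) (hz : ‖z‖ < 1) : 1 - conj c * z ≠ 0 := by
  intro h
  have : ‖conj c * z‖ = 1 := by rw [← sub_eq_zero.1 h, norm_one]
  rw [norm_mul, norm_conj] at this
  nlinarith [norm_nonneg c, norm_nonneg z]

theorem mb_lt {c z : ℂ} (hc : ‖c‖ < 1) (hz : ‖z‖ < 1) : ‖mb c z‖ < 1 := by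
  rw [mb, norm_div, div_lt_one (norm_pos_iff.2 (den_ne hc hz)), ← sq_lt_sq₀ (norm_nonneg _)
    (norm_nonneg _), Complex.sq_norm, Complex.sq_norm]
  have a : normSq c < 1 := by rw [← Complex.sq_norm]; nlinarith [norm_nonneg c]
  have b : normSq z < 1 := by rw [← Complex.sq_norm]; nlinarith [norm_nonneg z]
  have := mul_pos (sub_pos.2 a) (sub_pos.2 b)
  simp only [normSq_apply, sub_re, sub_im, mul_re, mul_im, conj_re, conj_im, one_re, one_im] at *
  nlinarith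

theorem mb_deriv {c z : ℂ} (hc : ‖c‖ < 1) (hz : ‖z‖ < 1) :
    HasDerivAt (mb c) ((1 - conj c * c) / (1 - conj c * z) ^ 2) z := by
  have := ((hasDerivAt_id z).sub_const c).fun_div
    (((hasDerivAt_id z).const_mul (conj c)).const_sub 1) (den_ne hc hz)
  exact this.congr_deriv (by simp only [id]; ring)

theorem mb_inj {c z w : ℂ} (hc : ‖c‖ < 1) (hz : ‖z‖ < 1) (hw : ‖w‖ < 1) (h : mb c z = mb c w) :
    z = w := by
  rw [mb, mb, div_eq_div_iff (den_ne hc hz) (den_ne hc hw)] at h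
  have : (1 - conj c * c) * (z - w) = 0 := by linear_combination h
  exact sub_eq_zero.1 ((mul_eq_zero.1 this).resolve_left (den_ne hc hc))

theorem root_deriv {s h : ℂ → ℂ} {z h' : ℂ} (hs : ContinuousAt s z) (e : ∀ y, s y ^ 2 = h y)
    (h0 : s z ≠ 0) (hh : HasDerivAt h h' z) : HasDerivAt s (h' / (2 * s z)) z := by
  rw [hasDerivAt_iff_tendsto_slope] at hh ⊢
  have h2 : Tendsto (fun y => s y + s z) (𝓝[≠] z) (𝓝 (2 * s z)) := by
    rw [two_mul]; exact (hs.tendsto.mono_left nhdsWithin_le_nhds).add_const _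
  have h3 : 2 * s z ≠ 0 := mul_ne_zero two_ne_zero h0
  refine (hh.div h2 h3).congr' ?_
  filter_upwards [h2.eventually_ne h3] with y hy
  simp only [Pi.div_apply, slope_def_field, ← e]
  field_simp
  ring

/-- the extremal family -/
structure Fam (Ω : Set ℂ) (x : ℂ) (ψ : ℂ → ℂ) : Prop where
  d : DifferentiableOn ℂ ψ Ω
  m : MapsTo ψ Ω D
  inj : InjOn ψ Ω
  z : ψ x = 0
  ne : ∀ z ∈ Ω, deriv ψ z ≠ 0

theorem improve {Ω : Set ℂ} (hΩ : IsOpen Ω) (hsc : IsSimplyConnected Ω) {x : ℂ} (hx : x ∈ Ω)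
    {ψ : ℂ → ℂ} (h : Fam Ω x ψ) {c : ℂ} (hc : ‖c‖ < 1) (hn : c ∉ ψ '' Ω) :
    ∃ φ, Fam Ω x φ ∧ ‖deriv ψ x‖ < ‖deriv φ x‖ := by
  have m : ∀ z ∈ Ω, ‖ψ z‖ < 1 := fun z hz => mem_ball_zero_iff.1 (h.m hz)
  have d1 : ∀ z ∈ Ω, HasDerivAt (fun z => mb c (ψ z))
      ((1 - conj c * c) / (1 - conj c * ψ z) ^ 2 * deriv ψ z) z := fun z hz =>
    (mb_deriv hc (m z hz)).comp z (h.d.differentiableAt (hΩ.mem_nhds hz)).hasDerivAt
  have n1 : ∀ z ∈ Ω, mb c (ψ z) ≠ 0 := fun z hz =>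
    div_ne_zero (sub_ne_zero.2 fun e => hn ⟨z, hz, e⟩) (den_ne hc (m z hz))
  obtain ⟨s, sc, se⟩ := exists_continuousOn_pow_eq hsc hΩ (g := fun z => mb c (ψ z))
    (fun z hz => (d1 z hz).continuousAt.continuousWithinAt)
    (fun ⟨z, hz, e⟩ => n1 z hz e) two_ne_zero
  have s0 : ∀ z ∈ Ω, s z ≠ 0 := fun z hz e => n1 z hz (by rw [← se z, e]; simp)
  have s1 : ∀ z ∈ Ω, ‖s z‖ < 1 := fun z hz => by
    rw [← pow_lt_one_iff_of_nonneg (norm_nonneg _) two_ne_zero, ← norm_pow, se]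
    exact mb_lt hc (m z hz)
  have d2 : ∀ z ∈ Ω, HasDerivAt (fun z => mb (s x) (s z))
      ((1 - conj (s x) * s x) / (1 - conj (s x) * s z) ^ 2 *
        ((1 - conj c * c) / (1 - conj c * ψ z) ^ 2 * deriv ψ z / (2 * s z))) z := fun z hz =>
    (mb_deriv (s1 x hx) (s1 z hz)).comp z
      (root_deriv (sc.continuousAt (hΩ.mem_nhds hz)) se (s0 z hz) (d1 z hz))
  refine ⟨fun z => mb (s x) (s z), ⟨fun z hz => (d2 z hz).differentiableAt.differentiableWithinAt,
    fun z hz => mem_ball_zero_iff.2 (mb_lt (s1 x hx) (s1 z hz)), fun z hz w hw e => ?_,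
    by simp [mb], fun z hz => ?_⟩, ?_⟩
  · have e1 := mb_inj (s1 x hx) (s1 z hz) (s1 w hw) e
    refine h.inj hz hw (mb_inj hc (m z hz) (m w hw) ?_)
    rw [← se z, ← se w, e1]
  · rw [(d2 z hz).deriv]
    exact mul_ne_zero (div_ne_zero (den_ne (s1 x hx) (s1 x hx))
      (pow_ne_zero _ (den_ne (s1 x hx) (s1 z hz)))) (div_ne_zero (mul_ne_zero (div_ne_zero
        (den_ne hc hc) (pow_ne_zero _ (den_ne hc (m z hz)))) (h.ne z hz))
          (mul_ne_zero two_ne_zero (s0 z hz)))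
  · have e : c = -s x ^ 2 := by rw [se, h.z]; simp [mb]
    have n2 := den_ne (s1 x hx) (s1 x hx)
    have e2 : (1 - conj (s x) * s x) / (1 - conj (s x) * s x) ^ 2 *
        ((1 - conj c * c) / (1 - conj c * ψ x) ^ 2 * deriv ψ x / (2 * s x)) =
        (1 + conj (s x) * s x) / (2 * s x) * deriv ψ x := by
      have := s0 x hx
      rw [h.z, e]
      simp only [map_neg, map_pow, mul_zero, sub_zero]
      field_simp
      ring
    have e3 : ‖1 + conj (s x) * s x‖ = 1 + ‖s x‖ ^ 2 := by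
      rw [conj_mul']
      exact_mod_cast abs_of_pos (by positivity)
    rw [(d2 x hx).deriv, e2, norm_mul, norm_div, e3, norm_mul, Complex.norm_two]
    refine lt_mul_of_one_lt_left (norm_pos_iff.2 (h.ne x hx)) ?_
    have := norm_pos_iff.2 (s0 x hx)
    rw [one_lt_div (by positivity)]
    nlinarith [s1 x hx, mul_pos (sub_pos.2 (s1 x hx)) (sub_pos.2 (s1 x hx))]

theorem extremal {Ω : Set ℂ} (hΩ : IsOpen Ω) (hc : IsPreconnected Ω) (hb : Bornology.IsBounded Ω)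
    {x : ℂ} (hx : x ∈ Ω) : ∃ ψ, Fam Ω x ψ ∧ ∀ φ, Fam Ω x φ → ‖deriv φ x‖ ≤ ‖deriv ψ x‖ := by
  obtain ⟨R, hR, hs⟩ := hb.subset_ball_lt 0 x
  have hR' : (R : ℂ) ≠ 0 := by exact_mod_cast hR.ne'
  have f0 : Fam Ω x fun z => (z - x) / R :=
    ⟨by fun_prop, fun z hz => by
      rw [mem_ball_zero_iff, norm_div, norm_real, Real.norm_of_nonneg hR.le, div_lt_one hR]
      exact mem_ball_iff_norm.1 (hs hz), fun z _ w _ e => by simpa [hR'] using e, by simp,
      fun z _ => by simp [hR']⟩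
  obtain ⟨r, hr, hs⟩ := Metric.isOpen_iff.1 hΩ x hx
  set S : Set ℝ := {t | ∃ φ, Fam Ω x φ ∧ ‖deriv φ x‖ = t}
  have Sb : BddAbove S := ⟨2 / r, by
    rintro _ ⟨φ, h, rfl⟩
    exact norm_deriv_le_div_of_mapsTo_ball (h.d.mono hs) (lip h.m hr hs) hr⟩
  obtain ⟨u, -, hu, hS⟩ := exists_seq_tendsto_sSup (S := S) ⟨_, _, f0, rfl⟩ Sb
  choose F hF e using hS
  obtain ⟨g, hg⟩ := montel hΩ F (fun n => (hF n).d) (fun n => (hF n).m) (hyperfilter ℕ)
  have gd := hg.differentiableOn (.of_forall fun n => (hF n).d) hΩ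
  have hg' := hg.deriv (.of_forall fun n => (hF n).d) hΩ
  have e1 : ‖deriv g x‖ = sSup S := tendsto_nhds_unique (hg'.tendsto_at hx).norm
    (by simpa only [Function.comp_apply, e] using hu.mono_left Nat.hyperfilter_le_atTop)
  have mx : ∀ φ, Fam Ω x φ → ‖deriv φ x‖ ≤ ‖deriv g x‖ := fun φ h => e1 ▸ le_csSup Sb ⟨φ, h, rfl⟩
  have n0 : deriv g x ≠ 0 := norm_pos_iff.1 ((norm_pos_iff.2 (f0.ne x hx)).trans_le (mx _ f0))
  have g0 : g x = 0 := tendsto_nhds_unique (hg.tendsto_at hx) (by simp [(hF _).z])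
  have g1 : ∀ z ∈ Ω, ‖g z‖ ≤ 1 := fun z hz =>
    le_of_tendsto' (hg.tendsto_at hz).norm fun n => (mem_ball_zero_iff.1 ((hF n).m hz)).le
  refine ⟨g, ⟨gd, fun z hz => mem_ball_zero_iff.2 ((g1 z hz).lt_of_ne fun e => ?_),
    fun a ha b hb e => by_contra fun hab => n0 ?_, g0, fun z hz e => n0 ?_⟩, mx⟩
  · have := norm_eqOn_of_isPreconnected_of_isMaxOn hc hΩ gd hz
      (fun y hy => by simpa [e] using g1 y hy) hx
    simp [g0, e] at this
  · have t : TendstoLocallyUniformlyOn (fun n z => F n z - F n b) (fun z => g z - g b)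
        (hyperfilter ℕ) (Ω \ {b}) :=
      (hg.mono sdiff_subset).sub ((hg.tendsto_at hb).tendstoUniformlyOn_const
        _).tendstoLocallyUniformlyOn
    have := hurwitz (hΩ.sdiff isClosed_singleton)
      (fun n => ((hF n).d.mono sdiff_subset).sub_const _)
      (fun n z hz e => hz.2 ((hF n).inj hz.1 hb (sub_eq_zero.1 e))) t ⟨ha, hab⟩ (sub_eq_zero.2 e)
    have k := ((gd.sub_const (g b)).analyticOnNhd hΩ).eqOn_zero_of_preconnected_of_eventuallyEq_zero
      hc ha this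
    have : g =ᶠ[𝓝 x] fun _ => g b := by
      filter_upwards [hΩ.mem_nhds hx] with y hy using sub_eq_zero.1 (k hy)
    rw [this.deriv_eq, deriv_const]
  · exact ((gd.deriv hΩ).analyticOnNhd hΩ).eqOn_zero_of_preconnected_of_eventuallyEq_zero hc hz
      (hurwitz hΩ (fun n => (hF n).d.deriv hΩ) (fun n => (hF n).ne) hg' hz e) hx

end Rm

theorem riemann : RiemannStmt := by
  intro Ω hΩ hsc hb x hx
  obtain ⟨ψ, h, mx⟩ := Rm.extremal hΩ hsc.isPathConnected.isConnected.isPreconnected hb hx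
  have su : ∀ c ∈ D, ∃ z ∈ Ω, ψ z = c := fun c hc => by_contra fun hn => by
    obtain ⟨φ, h1, h2⟩ := Rm.improve hΩ hsc hx h (mem_ball_zero_iff.1 hc) hn
    exact (mx φ h1).not_gt h2
  have l : ∀ z ∈ Ω, Function.invFunOn ψ Ω (ψ z) = z := h.inj.leftInvOn_invFunOn
  refine ⟨Function.invFunOn ψ Ω, ψ, ⟨fun c hc => ?_, h.d, fun c hc => Function.invFunOn_mem (su c hc),
    h.m, fun c hc => Function.invFunOn_eq (su c hc), l⟩, h.z ▸ l x hx⟩
  obtain ⟨z, hz, rfl⟩ := su c hc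
  exact ((h.d.analyticOnNhd hΩ z hz).hasStrictDerivAt.to_local_left_inverse (h.ne z hz)
    (by filter_upwards [hΩ.mem_nhds hz] using l)).hasDerivAt.differentiableAt.differentiableWithinAt

end Vale.Agent.P071
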