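import Vale.Agent.P071.Spec

/-! Change of variables, the moment inequality and the Bergman inequality. -/

namespace Vale.Agent.P071.Tr

open MeasureTheory Complex Set Metric Filter Topology
open scoped ComplexConjugate

theorem det_wl (p : ℂ) : |(wl p 0).det| = ‖p‖ ^ 2 := by
  have h : ((wl p 0 : ℂ →L[ℝ] ℂ) : ℂ →ₗ[ℝ] ℂ) = LinearMap.mul ℝ ℂ p := by ext <;> simp
  have h2 : (wl p 0).det = normSq p := by
    rw [← Algebra.norm_complex_apply, Algebra.norm_apply, ContinuousLinearMap.det, h]
    rfl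
  rw [h2, normSq_eq_norm_sq, abs_of_nonneg (by positivity)]

variable {F : ℂ → ℂ} {E : Type} [NormedAddCommGroup E] [NormedSpace ℝ E]

theorem hasD (hF : DifferentiableOn ℂ F D) {z : ℂ} (hz : z ∈ D) : HasDerivAt F (deriv F z) z :=
  (hF.differentiableAt (isOpen_ball.mem_nhds hz)).hasDerivAt

theorem cv (hF : DifferentiableOn ℂ F D) (hi : InjOn F D) (g : ℂ → E) :
    ∫ x in F '' D, g x = ∫ z in D, ‖deriv F z‖ ^ 2 • g (F z) := by
  rw [integral_image_eq_integral_abs_det_fderiv_smul volume measurableSet_ball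
    (fun z hz => HasFDerivAt.hasFDerivWithinAt (hasW_of (hasD hF hz))) hi g]
  simp only [det_wl]

theorem cvi (hF : DifferentiableOn ℂ F D) (hi : InjOn F D) (g : ℂ → E) :
    IntegrableOn g (F '' D) ↔ IntegrableOn (fun z => ‖deriv F z‖ ^ 2 • g (F z)) D := by
  rw [integrableOn_image_iff_integrableOn_abs_det_fderiv_smul volume measurableSet_ball
    (fun z hz => HasFDerivAt.hasFDerivWithinAt (hasW_of (hasD hF hz))) hi g]
  simp only [det_wl]

theorem area (hF : DifferentiableOn ℂ F D) (hi : InjOn F D) :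
    ∫ z in D, ‖deriv F z‖ ^ 2 = volume.real (F '' D) := by
  simpa using (cv hF hi fun _ => (1 : ℝ)).symm

theorem radial {s : ℝ} (hs : 0 ≤ s) (c : ℂ) :
    ∫ x : ℂ, max (s - ‖x - c‖ ^ 2) 0 = Real.pi * s ^ 2 / 2 := by
  rw [integral_sub_right_eq_self (fun x : ℂ => max (s - ‖x‖ ^ 2) 0) c,
    integral_fun_norm_addHaar volume (fun y => max (s - y ^ 2) 0)]
  have hr : √s ^ 2 = s := Real.sq_sqrt hs
  have h1 : ∫ y in Ioi (0 : ℝ), y ^ (Module.finrank ℝ ℂ - 1) • max (s - y ^ 2) 0 = s ^ 2 / 4 := by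
    rw [setIntegral_eq_of_subset_of_forall_sdiff_eq_zero (s := Ioc 0 √s) measurableSet_Ioi
      Ioc_subset_Ioi_self fun y hy => ?_, setIntegral_congr_fun (g := fun y => s * y - y ^ 3)
      measurableSet_Ioc fun y hy => ?_, ← intervalIntegral.integral_of_le (Real.sqrt_nonneg s),
      intervalIntegral.integral_sub (by apply Continuous.intervalIntegrable; fun_prop)
        (by apply Continuous.intervalIntegrable; fun_prop), intervalIntegral.integral_const_mul,
      integral_id, integral_pow]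
    · have : √s ^ (3 + 1) = s ^ 2 := by rw [show 3 + 1 = 2 * 2 by rfl, pow_mul, hr]
      rw [this, hr]; push_cast; ring
    · have : y ^ 2 ≤ s := by nlinarith [hy.1, hy.2, Real.sqrt_nonneg s]
      simp only [finrank_real_complex, smul_eq_mul]
      rw [max_eq_left (by linarith)]; ring
    · have h0 : 0 < y := hy.1
      have h1 : √s < y := by
        by_contra h
        exact hy.2 ⟨h0, not_lt.mp h⟩
      have : s ≤ y ^ 2 := by nlinarith [Real.sqrt_nonneg s]
      rw [max_eq_right (by linarith), smul_zero]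
  rw [h1]
  simp [Measure.real, Complex.volume_ball]
  ring

theorem mom0 {Ω : Set ℂ} (hb : Bornology.IsBounded Ω) (c : ℂ) :
    volume.real Ω ^ 2 ≤ 2 * Real.pi * ∫ x in Ω, ‖x - c‖ ^ 2 := by
  haveI : IsFiniteMeasure (volume.restrict Ω) := ⟨by simpa using hb.measure_lt_top⟩
  have hp := Real.pi_pos
  set V := volume.real Ω with hV
  have hV0 : 0 ≤ V := measureReal_nonneg
  have hs : 0 ≤ V / Real.pi := by positivity
  have hk : Integrable fun x : ℂ => max (V / Real.pi - ‖x - c‖ ^ 2) 0 := by
    refine Continuous.integrable_of_hasCompactSupport (by fun_prop)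
      (HasCompactSupport.intro (isCompact_closedBall c √(V / Real.pi)) fun x hx => ?_)
    rw [mem_closedBall_iff_norm, not_le] at hx
    exact max_eq_right (by nlinarith [Real.sq_sqrt hs, Real.sqrt_nonneg (V / Real.pi)])
  have hq : IntegrableOn (fun x : ℂ => ‖x - c‖ ^ 2) Ω :=
    (ContinuousOn.integrableOn_compact hb.isCompact_closure (by fun_prop)).mono_set subset_closure
  have h1 : ∫ x in Ω, (V / Real.pi - ‖x - c‖ ^ 2) ≤ Real.pi * (V / Real.pi) ^ 2 / 2 := by
    rw [← radial hs c]
    refine le_trans (integral_mono ((integrable_const _).sub hq) hk.integrableOn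
      fun x => le_max_left _ _) (setIntegral_le_integral hk (.of_forall fun x => le_max_right _ _))
  rw [integral_sub (integrable_const _) hq] at h1
  simp only [integral_const, measureReal_restrict_apply_univ, smul_eq_mul, ← hV] at h1
  have e1 : Real.pi * (V / Real.pi) ^ 2 / 2 = V ^ 2 / Real.pi / 2 := by field_simp
  have e2 : V * (V / Real.pi) = V ^ 2 / Real.pi := by ring
  have e3 : V ^ 2 = Real.pi * (V ^ 2 / Real.pi) := by field_simp
  rw [e1, e2] at h1
  nlinarith

theorem circ {h : ℂ → ℂ} (hh : DifferentiableOn ℂ h D) {r : ℝ} (hr : r ∈ Ioo (0 : ℝ) 1) :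
    ENNReal.ofReal (2 * Real.pi * ‖h 0‖) ≤
      ∫⁻ θ in Ioo (-Real.pi) Real.pi, ‖h (Complex.polarCoord.symm (r, θ))‖ₑ := by
  have hp := Real.pi_pos
  have hd : DiffContOnCl ℂ h (ball 0 |r|) := by
    refine DifferentiableOn.diffContOnCl (hh.mono ?_)
    rw [abs_of_pos hr.1, closure_ball _ hr.1.ne']
    exact closedBall_subset_ball hr.2
  have h1 := hd.circleAverage
  rw [Real.circleAverage_eq_integral_add (-Real.pi),
    intervalIntegral.integral_comp_add_right (fun θ => h (circleMap 0 r θ)),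
    show 2 * Real.pi + -Real.pi = Real.pi by ring, zero_add,
    intervalIntegral.integral_of_le (by linarith), integral_Ioc_eq_integral_Ioo] at h1
  have h2 : 2 * Real.pi * ‖h 0‖ = ‖∫ θ in Ioo (-Real.pi) Real.pi, h (circleMap 0 r θ)‖ := by
    rw [← h1, norm_smul, Real.norm_of_nonneg (by positivity)]
    field_simp
  rw [h2, ofReal_norm]
  refine (enorm_integral_le_lintegral_enorm _).trans (le_of_eq ?_)
  refine lintegral_congr fun θ => ?_
  simp [circleMap, exp_mul_I]

theorem submean {h : ℂ → ℂ} (hh : DifferentiableOn ℂ h D) (hi : IntegrableOn h D) :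
    Real.pi * ‖h 0‖ ≤ ∫ z in D, ‖h z‖ := by
  have hp := Real.pi_pos
  rw [← ENNReal.ofReal_le_ofReal_iff (integral_nonneg fun _ => norm_nonneg _),
    ofReal_integral_norm_eq_lintegral_enorm hi, ← lintegral_indicator measurableSet_ball,
    ← Complex.lintegral_comp_polarCoord_symm]
  have hm : MeasurableSet (Ioo (0 : ℝ) 1 ×ˢ Ioo (-Real.pi) Real.pi) :=
    measurableSet_Ioo.prod measurableSet_Ioo
  have hD : ∀ p ∈ Ioo (0 : ℝ) 1 ×ˢ Ioo (-Real.pi) Real.pi, Complex.polarCoord.symm p ∈ D :=
    fun p hp => by rw [mem_ball_zero_iff, norm_polarCoord_symm, abs_of_pos hp.1.1]; exact hp.1.2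
  refine le_trans ?_ (lintegral_mono_set (s := Ioo (0 : ℝ) 1 ×ˢ Ioo (-Real.pi) Real.pi)
    (prod_mono Ioo_subset_Ioi_self subset_rfl))
  rw [setLIntegral_congr_fun hm (g := fun p => ENNReal.ofReal p.1 *
    ‖h (Complex.polarCoord.symm p)‖ₑ) fun p hp => by
      simp only [indicator_of_mem (hD p hp), smul_eq_mul], Measure.volume_eq_prod,
    setLIntegral_prod]
  · have e : ENNReal.ofReal (Real.pi * ‖h 0‖) =
        ∫⁻ r in Ioo (0 : ℝ) 1, ENNReal.ofReal (r * (2 * Real.pi * ‖h 0‖)) := by
      rw [← ofReal_integral_eq_lintegral_ofReal, ← integral_Ioc_eq_integral_Ioo,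
        ← intervalIntegral.integral_of_le zero_le_one, intervalIntegral.integral_mul_const,
        integral_id]
      · congr 1; ring
      · exact (ContinuousOn.integrableOn_compact isCompact_Icc (by fun_prop)).mono_set
          Ioo_subset_Icc_self
      · exact (ae_restrict_iff' measurableSet_Ioo).mpr (.of_forall fun r hr => by
          have := hr.1
          simp only [Pi.zero_apply]
          positivity)
    rw [e]
    refine setLIntegral_mono' measurableSet_Ioo fun r hr => ?_
    rw [ENNReal.ofReal_mul hr.1.le, lintegral_const_mul' _ _ ENNReal.ofReal_ne_top]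
    exact mul_le_mul_right (circ hh hr) _
  · refine AEMeasurable.mul (f := fun p : ℝ × ℝ => ENNReal.ofReal p.1)
      (g := fun p => ‖h (Complex.polarCoord.symm p)‖ₑ)
      (ENNReal.measurable_ofReal.comp measurable_fst).aemeasurable
      (ContinuousOn.aemeasurable ?_ hm)
    refine continuous_enorm.comp_continuousOn (hh.continuousOn.comp ?_ hD)
    rw [show (Complex.polarCoord.symm : ℝ × ℝ → ℂ) = _ from funext Complex.polarCoord_symm_apply]
    fun_prop

theorem area_int (hF : DifferentiableOn ℂ F D) (hi : InjOn F D)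
    (hb : Bornology.IsBounded (F '' D)) : IntegrableOn (fun z => ‖deriv F z‖ ^ 2) D := by
  simpa using (cvi hF hi fun _ => (1 : ℝ)).mp (integrableOn_const hb.measure_lt_top.ne)

theorem berg0 {f : ℂ → ℂ} (hf : DifferentiableOn ℂ f D) (hi : InjOn f D)
    (hb : Bornology.IsBounded (f '' D)) {a : ℂ} (ha : a ∈ D) :
    Real.pi * (‖deriv f a‖ ^ 2 * (1 - ‖a‖ ^ 2) ^ 2) ≤ ∫ z in D, ‖deriv f z‖ ^ 2 := by
  have ha1 : ‖a‖ < 1 := mem_ball_zero_iff.mp ha
  have hne : ∀ z ∈ D, 1 + conj a * z ≠ 0 := fun z hz h => by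
    have h1 : ‖conj a * z‖ = 1 := by rw [eq_neg_of_add_eq_zero_right h]; simp
    rw [norm_mul, norm_conj] at h1
    nlinarith [mem_ball_zero_iff.mp hz, norm_nonneg z, norm_nonneg a]
  set m : ℂ → ℂ := fun z => (z + a) / (1 + conj a * z) with hm
  have md : DifferentiableOn ℂ m D := DifferentiableOn.div (by fun_prop) (by fun_prop) hne
  have mm : MapsTo m D D := fun z hz => by
    have hz1 : ‖z‖ < 1 := mem_ball_zero_iff.mp hz
    rw [mem_ball_zero_iff, hm, norm_div, div_lt_one (norm_pos_iff.mpr (hne z hz)),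
      ← sq_lt_sq₀ (norm_nonneg _) (norm_nonneg _), ← normSq_eq_norm_sq, ← normSq_eq_norm_sq]
    have e : normSq (1 + conj a * z) - normSq (z + a) = (1 - normSq a) * (1 - normSq z) := by
      simp [normSq_apply]; ring
    have h1 : normSq a < 1 := by rw [normSq_eq_norm_sq]; nlinarith [norm_nonneg a]
    have h2 : normSq z < 1 := by rw [normSq_eq_norm_sq]; nlinarith [norm_nonneg z]
    nlinarith
  have hn : (1 : ℂ) - conj a * a ≠ 0 := by
    simpa [sub_eq_add_neg] using hne (-a) (by simpa using ha1)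
  have mi : InjOn m D := fun z hz w hw h => by
    rw [hm, div_eq_div_iff (hne z hz) (hne w hw)] at h
    exact mul_left_cancel₀ hn (by linear_combination h)
  have hF : DifferentiableOn ℂ (f ∘ m) D := hf.comp md mm
  have hFi : InjOn (f ∘ m) D := hi.comp mi mm
  have hsub : (f ∘ m) '' D ⊆ f '' D := by
    rintro _ ⟨z, hz, rfl⟩
    exact ⟨m z, mm hz, rfl⟩
  have h0 : (0 : ℂ) ∈ D := mem_ball_self one_pos
  have hd : deriv (f ∘ m) 0 = deriv f a * (1 - conj a * a) := by
    have h1 : HasDerivAt m (1 - conj a * a) 0 := by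
      have := ((hasDerivAt_id (0 : ℂ)).add_const a).div
        (((hasDerivAt_id (0 : ℂ)).const_mul (conj a)).const_add 1) (hne 0 h0)
      exact this.congr_deriv (by simp [mul_comm])
    have h2 : HasDerivAt f (deriv f a) (m 0) := by simpa [hm] using hasD hf ha
    exact (h2.comp 0 h1).deriv
  have hI := area_int hF hFi (hb.subset hsub)
  have hdd : DifferentiableOn ℂ (fun z => deriv (f ∘ m) z ^ 2) D := (hF.deriv isOpen_ball).pow 2
  have h3 := submean hdd ((integrable_norm_iff
    (hdd.continuousOn.aestronglyMeasurable measurableSet_ball)).mp (by simp only [norm_pow]; exact hI))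
  simp only [norm_pow] at h3
  rw [area hF hFi, hd] at h3
  rw [area hf hi]
  refine le_trans (le_of_eq ?_) (h3.trans (measureReal_mono hsub hb.measure_lt_top.ne))
  have : ‖1 - conj a * a‖ = 1 - ‖a‖ ^ 2 := by
    rw [conj_mul', ← ofReal_pow, ← ofReal_one, ← ofReal_sub, norm_real,
      Real.norm_of_nonneg (by nlinarith [norm_nonneg a])]
  rw [norm_mul, this, mul_pow]

end Vale.Agent.P071.Tr
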