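import Vale.Agent.P071.TrA
import Vale.Agent.P071.TrB

/-! Module T: transfer of the Neumann problem to the disc. -/

namespace Vale.Agent.P071

open MeasureTheory Complex Set Metric Filter Topology
open scoped ComplexConjugate

namespace Tr

variable {Ω : Set ℂ} {f ψ : ℂ → ℂ} {a A B : ℂ → ℂ}

theorem img (hc : Conf Ω f ψ) : f '' D = Ω :=
  subset_antisymm hc.mf.image_subset fun x hx => ⟨ψ x, hc.mψ hx, hc.r x hx⟩

theorem inj (hc : Conf Ω f ψ) : InjOn f D := fun z hz w hw h => by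
  rw [← hc.l z hz, h, hc.l w hw]

theorem dψ (hΩ : IsOpen Ω) (hc : Conf Ω f ψ) {z : ℂ} (hz : z ∈ D) :
    HasDerivAt ψ (deriv ψ (f z)) (f z) :=
  (hc.hψ.differentiableAt (hΩ.mem_nhds (hc.mf hz))).hasDerivAt

theorem chain (hΩ : IsOpen Ω) (hc : Conf Ω f ψ) {z : ℂ} (hz : z ∈ D) :
    deriv ψ (f z) * deriv f z = 1 :=
  ((dψ hΩ hc hz).comp z (hasD hc.hf hz)).unique ((hasDerivAt_id z).congr_of_eventuallyEq
    (by filter_upwards [isOpen_ball.mem_nhds hz] with w hw using hc.l w hw))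

theorem cvR (hc : Conf Ω f ψ) (g : ℂ → ℝ) :
    ∫ x in Ω, g x = ∫ z in D, ‖deriv f z‖ ^ 2 * g (f z) := by
  rw [← img hc]; exact cv hc.hf (inj hc) g

theorem cviR (hc : Conf Ω f ψ) (g : ℂ → ℝ) :
    IntegrableOn g Ω ↔ IntegrableOn (fun z => ‖deriv f z‖ ^ 2 * g (f z)) D := by
  rw [← img hc]; exact cvi hc.hf (inj hc) g

theorem test_cmul (h : Test a A B) (c : ℂ) :
    Test (fun z => c * a z) (fun z => c * A z) (fun z => c * B z) := by
  obtain ⟨C, hC⟩ := h.bd
  exact ⟨fun z hz => (h.w z hz).cmul c, ⟨‖c‖ * C, fun z hz => by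
    rw [norm_mul]; exact mul_le_mul_of_nonneg_left (hC z hz) (norm_nonneg c)⟩,
    h.mA.const_mul c, h.mB.const_mul c⟩

theorem l2_conj (h : L2 A) : L2 fun z => conj (A z) :=
  (conjCLE : ℂ →L[ℝ] ℂ).comp_memLp' h

theorem test_meas (h : Test a A B) : AEStronglyMeasurable a (volume.restrict D) :=
  ContinuousOn.aestronglyMeasurable (fun z hz => (h.w z hz).cont.continuousWithinAt)
    measurableSet_ball

theorem test_mul (h : Test a A B) {k : ℂ → ℝ} (hk : IntegrableOn k D) :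
    IntegrableOn (fun z => (k z : ℂ) * a z) D := by
  obtain ⟨C, hC⟩ := h.bd
  exact Integrable.mul_bdd hk.ofReal (test_meas h)
    ((ae_restrict_iff' measurableSet_ball).mpr (.of_forall hC))

theorem test_gr (hΩ : IsOpen Ω) (hc : Conf Ω f ψ) (h : Test a A B) {z : ℂ} (hz : z ∈ D) :
    DifferentiableAt ℝ (fun x => (a (ψ x)).re) (f z) ∧
      gr (fun x => (a (ψ x)).re) (f z) * conj (deriv f z) = conj (A z) + B z := by
  have h1 : HasW a (ψ (f z)) (A z) (B z) := by rw [hc.l z hz]; exact h.w z hz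
  have h2 := h1.comp_holo (dψ hΩ hc hz)
  have hd : DifferentiableAt ℝ (fun x => (a (ψ x)).re) (f z) :=
    (reCLM.hasFDerivAt.comp (f z) h2).differentiableAt
  refine ⟨hd, ?_⟩
  have h3 := ((hasW_real hd).unique (((h2.add h2.conj).cmul (1 / 2)).congr
    (.of_forall fun x => by simp [add_conj]))).2
  have h4 : conj (deriv ψ (f z)) * conj (deriv f z) = 1 := by
    rw [← map_mul, chain hΩ hc hz, map_one]
  rw [map_mul] at h3
  linear_combination 2 * conj (deriv f z) * h3 + (conj (A z) + B z) * h4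

theorem nsq (g p : ℂ) : ‖p‖ ^ 2 * ‖g‖ ^ 2 = ‖g * conj p‖ ^ 2 := by
  rw [norm_mul, norm_conj]; ring

theorem test_h1 (hΩ : IsOpen Ω) (hb : Bornology.IsBounded Ω) (hc : Conf Ω f ψ) (h : Test a A B) :
    H1 Ω (fun x => (a (ψ x)).re) (gr fun x => (a (ψ x)).re) := by
  haveI : IsFiniteMeasure (volume.restrict Ω) := ⟨by simpa using hb.measure_lt_top⟩
  have hd : ∀ x ∈ Ω, DifferentiableAt ℝ (fun x => (a (ψ x)).re) x := fun x hx => by
    have := (test_gr hΩ hc h (hc.mψ hx)).1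
    rwa [hc.r x hx] at this
  obtain ⟨C, hC⟩ := h.bd
  refine h1_of hd (MemLp.of_bound (ContinuousOn.aestronglyMeasurable
    (fun x hx => (hd x hx).continuousAt.continuousWithinAt) hΩ.measurableSet) C
    ((ae_restrict_iff' hΩ.measurableSet).mpr (.of_forall fun x hx =>
      (abs_re_le_norm _).trans (hC _ (hc.mψ hx))))) ?_
  rw [memLp_two_iff_integrable_sq_norm (meas_gr _).aestronglyMeasurable]
  refine (cviR hc _).mpr (IntegrableOn.congr_fun (f := fun z => ‖conj (A z) + B z‖ ^ 2) ?_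
    (fun z hz => ?_) measurableSet_ball)
  · have := (l2_conj h.mA).add h.mB
    exact (memLp_two_iff_integrable_sq_norm this.1).mp this
  · simp only [nsq, (test_gr hΩ hc h hz).2]

theorem ray {v : ℂ → ℝ} {g : ℂ → ℂ} (h : H1 Ω v g) (h0 : ∫ z in Ω, v z = 0) :
    mu1 Ω * ∫ z in Ω, v z ^ 2 ≤ ∫ z in Ω, ‖g z‖ ^ 2 := by
  have hn : 0 ≤ ∫ z in Ω, v z ^ 2 := integral_nonneg fun _ => sq_nonneg _
  rcases hn.eq_or_lt with e | e
  · rw [← e, mul_zero]; exact integral_nonneg fun _ => sq_nonneg _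
  · rw [← le_div_iff₀ e]
    refine csInf_le ⟨0, ?_⟩ ⟨v, g, h, h0, e.ne', rfl⟩
    rintro _ ⟨v, g, -, -, -, rfl⟩
    exact div_nonneg (integral_nonneg fun _ => sq_nonneg _) (integral_nonneg fun _ => sq_nonneg _)

theorem p1 (hΩ : IsOpen Ω) (hb : Bornology.IsBounded Ω) (hc : Conf Ω f ψ) (h : Test a A B)
    (h0 : ∫ z in D, (‖deriv f z‖ ^ 2 : ℝ) * a z = 0) :
    IntegrableOn (fun z => ‖deriv f z‖ ^ 2 * (a z).re ^ 2) D ∧
    mu1 Ω * ∫ z in D, ‖deriv f z‖ ^ 2 * (a z).re ^ 2 ≤ ∫ z in D, ‖conj (A z) + B z‖ ^ 2 := by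
  have hH := test_h1 hΩ hb hc h
  have e : EqOn (fun z => ‖deriv f z‖ ^ 2 * (a (ψ (f z))).re ^ 2)
      (fun z => ‖deriv f z‖ ^ 2 * (a z).re ^ 2) D := fun z hz => by simp only [hc.l z hz]
  refine ⟨((cviR hc _).mp hH.1.integrable_sq).congr_fun e measurableSet_ball, ?_⟩
  have hr := ray hH (by
    have hi := test_mul h (area_int hc.hf (inj hc) (by rwa [img hc]))
    have := integral_re hi
    rw [h0] at this
    rw [cvR hc, setIntegral_congr_fun measurableSet_ball
      (g := fun z => RCLike.re ((‖deriv f z‖ ^ 2 : ℝ) * a z)) fun z hz => by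
        simp only [hc.l z hz, RCLike.re_to_complex, re_ofReal_mul], this]
    simp)
  rw [cvR hc, cvR hc, setIntegral_congr_fun measurableSet_ball e] at hr
  exact hr.trans (setIntegral_congr_fun measurableSet_ball
    fun z hz => by simp only [nsq, (test_gr hΩ hc h hz).2]).le

theorem pp (hΩ : IsOpen Ω) (hb : Bornology.IsBounded Ω) (hc : Conf Ω f ψ) (h : Test a A B)
    (h0 : ∫ z in D, (‖deriv f z‖ ^ 2 : ℝ) * a z = 0) :
    mu1 Ω * ∫ z in D, ‖deriv f z‖ ^ 2 * ‖a z‖ ^ 2 ≤ 2 * ∫ z in D, (‖A z‖ ^ 2 + ‖B z‖ ^ 2) := by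
  obtain ⟨i1, e1⟩ := p1 hΩ hb hc h h0
  have h' := test_cmul h (-I)
  obtain ⟨i2, e2⟩ := p1 hΩ hb hc h' (by
    rw [← mul_zero (-I), ← h0, ← integral_const_mul]
    exact integral_congr_ae (.of_forall fun z => by ring))
  have j1 := (l2_conj h.mA).add h.mB
  have j2 := (l2_conj h'.mA).add h'.mB
  have s1 : ∫ z in D, ‖deriv f z‖ ^ 2 * ‖a z‖ ^ 2 = (∫ z in D, ‖deriv f z‖ ^ 2 * (a z).re ^ 2) +
      ∫ z in D, ‖deriv f z‖ ^ 2 * (-I * a z).re ^ 2 := by
    rw [← integral_add i1 i2]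
    refine integral_congr_ae (.of_forall fun z => ?_)
    simp only [← normSq_eq_norm_sq (a z), normSq_apply]
    simp; ring
  have s2 : 2 * ∫ z in D, (‖A z‖ ^ 2 + ‖B z‖ ^ 2) = (∫ z in D, ‖conj (A z) + B z‖ ^ 2) +
      ∫ z in D, ‖conj (-I * A z) + -I * B z‖ ^ 2 := by
    rw [← integral_const_mul]
    refine Eq.trans ?_ (integral_add ((memLp_two_iff_integrable_sq_norm j1.1).mp j1)
      ((memLp_two_iff_integrable_sq_norm j2.1).mp j2))
    refine integral_congr_ae (.of_forall fun z => ?_)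
    simp only [← normSq_eq_norm_sq, normSq_apply, Pi.add_apply]
    simp; ring
  rw [s1, s2, mul_add]
  linarith

theorem n1 (hΩ : IsOpen Ω) (hb : Bornology.IsBounded Ω) (hc : Conf Ω f ψ) {u : ℂ → ℝ} {μ : ℝ}
    {w : ℂ → ℂ} (hw : ∀ z, w z = conj (gr u (f z)) / 2 * deriv f z) (mw : L2 w)
    (iu : IntegrableOn (fun z => ‖deriv f z‖ ^ 2 * u (f z)) D)
    (hE : ∀ v k, H1 Ω v k → ∫ z in Ω, inner ℝ (gr u z) (k z) = μ * ∫ z in Ω, u z * v z)
    (h : Test a A B) : (2 * ∫ z in D, (w z * B z + conj (w z) * A z)).re =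
      (μ * ∫ z in D, (‖deriv f z‖ ^ 2 * u (f z) : ℝ) * a z).re := by
  have e := hE _ _ (test_h1 hΩ hb hc h)
  have i1 : IntegrableOn (fun z => w z * B z + conj (w z) * A z) D :=
    (mw.integrable_mul h.mB).add ((l2_conj mw).integrable_mul h.mA)
  have r1 := integral_re i1
  have r2 := integral_re (test_mul h iu)
  simp only [RCLike.re_to_complex] at r1 r2
  rw [re_ofReal_mul, ← r2, show (2 : ℂ) = (2 : ℝ) by simp, re_ofReal_mul, ← r1,
    ← integral_const_mul]
  rw [cvR hc, cvR hc] at e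
  refine Eq.trans (setIntegral_congr_fun measurableSet_ball fun z hz => ?_) (e.trans ?_)
  · have g1 := (test_gr hΩ hc h hz).2
    have g2 : gr u (f z) * conj (deriv f z) = 2 * conj (w z) := by
      rw [hw]; simp [map_ofNat]; ring
    have g3 : ∀ x y p : ℂ, ‖p‖ ^ 2 * inner ℝ x y = inner ℝ (x * conj p) (y * conj p) := by
      intro x y p
      simp only [Complex.inner, ← normSq_eq_norm_sq, normSq_apply]
      simp; ring
    beta_reduce
    rw [g3, g1, g2, Complex.inner]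
    simp; ring
  · congr 1
    refine setIntegral_congr_fun measurableSet_ball fun z hz => ?_
    simp only [hc.l z hz, re_ofReal_mul]; ring

end Tr

open Tr in
theorem transfer : TransferStmt := by
  intro Ω f ψ u hΩ hb hc ⟨g, hg, hE⟩ hu hcu
  haveI : IsFiniteMeasure (volume.restrict Ω) := ⟨by simpa using hb.measure_lt_top⟩
  have hae := weak_eq hΩ hb hu hg
  have hE' : ∀ v k, H1 Ω v k →
      ∫ z in Ω, inner ℝ (gr u z) (k z) = mu1 Ω * ∫ z in Ω, u z * v z := fun v k hv => by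
    rw [← hE v k hv]
    exact integral_congr_ae (by filter_upwards [hae] with z hz using by rw [hz])
  have mG : MemLp (gr u) 2 (volume.restrict Ω) := hg.2.1.ae_eq hae
  have hbi : Bornology.IsBounded (f '' D) := by rwa [img hc]
  have hne : ∀ z ∈ D, deriv f z ≠ 0 := fun z hz => right_ne_zero_of_mul_eq_one (chain hΩ hc hz)
  have hp : DifferentiableOn ℂ (deriv f) D := hc.hf.deriv isOpen_ball
  choose! W₁ hW₁ using fun x (hx : x ∈ Ω) => hasW_gr hΩ hu hx
  set w : ℂ → ℂ := fun z => conj (gr u (f z)) / 2 * deriv f z with hw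
  have hww : ∀ z ∈ D, HasW w z
      (W₁ (f z) * deriv f z * deriv f z + conj (gr u (f z)) / 2 * deriv (deriv f) z)
      (-(mu1 Ω / 4 * ‖deriv f z‖ ^ 2 * u (f z) : ℝ)) := fun z hz => by
    refine (((hW₁ _ (hc.mf hz)).comp_holo (hasD hc.hf hz)).mul (hasW_of (hasD hp hz))).of_eq rfl ?_
    rw [eq_neg_of_add_eq_zero_left (lap hΩ hu hE' (hc.mf hz)), mul_zero, add_zero,
      mul_assoc _ (conj _), conj_mul']
    push_cast; ring
  have mw : L2 w := by
    rw [L2, memLp_two_iff_integrable_sq_norm (ContinuousOn.aestronglyMeasurable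
      (fun z hz => (hww z hz).cont.continuousWithinAt) measurableSet_ball)]
    refine (((cviR hc _).mp ((memLp_two_iff_integrable_sq_norm mG.1).mp mG)).const_mul
      (1 / 4)).congr (.of_forall fun z => ?_)
    simp only [hw, norm_mul, norm_div, norm_conj, Complex.norm_ofNat]; ring
  have iu := (cviR hc u).mp (hg.1.integrable (by norm_num))
  refine ⟨w, _, ⟨hc.hf, ?_, hne, ?_, fun z hz => ?_, hww, ?_, mw,
    fun a A B h h0 => pp hΩ hb hc h h0, fun a A B h => ?_, fun c => ?_,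
    fun a ha => berg0 hc.hf (inj hc) hbi ha⟩, fun z hz => ?_⟩
  · obtain ⟨C, hC⟩ := hb.exists_norm_le
    exact ⟨C, fun z hz => hC _ (hc.mf hz)⟩
  · exact (memLp_two_iff_integrable_sq_norm (hp.continuousOn.aestronglyMeasurable
      measurableSet_ball)).mpr (area_int hc.hf (inj hc) hbi)
  · exact ((hasW_real (dif hΩ hu (hc.mf hz))).comp_holo (hasD hc.hf hz)).of_eq rfl
      (by simp [hw, map_ofNat])
  · obtain ⟨C, hC⟩ := hb.isCompact_closure.exists_bound_of_continuousOn hcu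
    exact ⟨C, fun z hz => hC _ (subset_closure (hc.mf hz))⟩
  · have e1 := n1 hΩ hb hc (fun z => rfl) mw iu hE' h
    have e2 := n1 hΩ hb hc (fun z => rfl) mw iu hE' (test_cmul h (-I))
    have s1 : ∫ z in D, (w z * (-I * B z) + conj (w z) * (-I * A z)) =
        -I * ∫ z in D, (w z * B z + conj (w z) * A z) := by
      rw [← integral_const_mul]
      exact integral_congr_ae (.of_forall fun z => by ring)
    have s2 : ∫ z in D, (‖deriv f z‖ ^ 2 * u (f z) : ℝ) * (-I * a z) =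
        -I * ∫ z in D, (‖deriv f z‖ ^ 2 * u (f z) : ℝ) * a z := by
      rw [← integral_const_mul]
      exact integral_congr_ae (.of_forall fun z => by ring)
    rw [s1, s2] at e2
    refine Complex.ext e1 ?_
    simpa using e2
  · rw [area hc.hf (inj hc), img hc, ← cvR hc fun x => ‖x - c‖ ^ 2]
    exact mom0 hb c
  · simp [hw, hne z hz, gr_eq_zero]

end Vale.Agent.P071
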