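import Vale.Agent.P071.Core
import Vale.Agent.P071.Riemann
import Vale.Agent.P071.Transfer

/-! No interior critical points, and the hot spots inequality. -/

namespace Vale.Agent.P071

open MeasureTheory Complex Set Metric Filter Topology

theorem no_crit {Ω : Set ℂ} (ho : IsOpen Ω) (hb : Bornology.IsBounded Ω) (hs : IsSimplyConnected Ω)
    (hμ : 0 < mu1 Ω) {u : ℂ → ℝ} (hu : Eig Ω u) (h2 : ContDiffOn ℝ 2 u Ω)
    (hc : ContinuousOn u (closure Ω)) (hne : ∃ y ∈ Ω, u y ≠ 0) {x : ℂ} (hx : x ∈ Ω) :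
    fderiv ℝ u x ≠ 0 := fun h0 => by
  obtain ⟨f, ψ, C, rfl⟩ := riemann Ω ho hs hb x hx
  obtain ⟨w, w₁, S, e⟩ := transfer Ω f ψ u ho hb C hu h2 hc
  have hw := S.core hμ ((e 0 (mem_ball_self one_pos)).mpr h0)
  obtain ⟨y, hy, hne⟩ := hne
  have hz := C.mψ hy
  have h1 := ((S.hw _ hz).unique ((hasW_const 0 _).congr (by
    filter_upwards [isOpen_ball.mem_nhds hz] with z hz using hw z hz))).2
  simp only [C.r y hy, neg_eq_zero, ofReal_eq_zero] at h1
  have := norm_pos_iff.mpr (S.ne _ hz)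
  exact hne ((mul_eq_zero.mp h1).resolve_left (by positivity))

theorem below {Ω : Set ℂ} (ho : IsOpen Ω) (hb : Bornology.IsBounded Ω) {u : ℂ → ℝ}
    (hc : ContinuousOn u (closure Ω)) (h : ∀ x ∈ Ω, fderiv ℝ u x ≠ 0) {x : ℂ} (hx : x ∈ Ω) :
    ∃ p ∈ frontier Ω, u p < u x := by
  obtain ⟨p, hp, hm⟩ := hb.isCompact_closure.exists_isMinOn ⟨x, subset_closure hx⟩ hc
  have key : ∀ y ∈ Ω, u p < u y := fun y hy => lt_of_le_of_ne (hm (subset_closure hy)) fun e =>
    h y hy (IsLocalMin.fderiv_eq_zero (by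
      filter_upwards [ho.mem_nhds hy] with z hz using e ▸ hm (subset_closure hz)))
  exact ⟨p, by rw [ho.frontier_eq]; exact ⟨hp, fun h' => (key p h').false⟩, key x hx⟩

end Vale.Agent.P071
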