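import Vale.Agent.P071.Dir

/-! The ground state inequality and the weighted estimate for the Cauchy-Riemann equation. -/

namespace Vale.Agent.P071

open MeasureTheory Complex Set Metric Filter Topology
open scoped ComplexConjugate

theorem ibpP {Φ r A B : ℂ → ℂ} (hr : Pl r) (e : ∀ z, Φ z = om z * r z)
    (hd : ∀ z, HasW Φ z (A z) (B z)) : ∫ z in D, A z = 0 ∧ ∫ z in D, B z = 0 := by
  have hΦ : Pl Φ := (Pl.om.mul hr).of_eq e
  have hb : ∀ z ∈ D, ‖Φ z‖ ≤ (1 - ‖z‖ ^ 2) * ‖r z‖ := fun z hz => by rw [e, norm_mul, norm_om hz]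
  exact ⟨ibpA hΦ.cont.continuousOn (fun z _ _ => hd z) (hΦ.dA hd).1.int hr.int.norm hb,
    ibp hΦ.cont.continuousOn (fun z _ _ => hd z) (hΦ.dA hd).2.int hr.int.norm hb⟩

theorem ip_comm (x y : ℂ → ℂ) : ip x y = ip y x := by
  rw [ip, ip, ← conj_re, ← integral_conj]
  simp [mul_comm]

theorem nn_par {x y : ℂ → ℂ} (hx : L2 x) (hy : L2 y) :
    nn (fun z => x z + y z) + nn (fun z => x z - y z) = 2 * nn x + 2 * nn y := by
  have h1 := nn_add hx hy (-1)
  simp only [ofReal_neg, ofReal_one, neg_mul, one_mul, ← sub_eq_add_neg] at h1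
  rw [h1, nn_add1 hx hy]; ring

theorem nn_conj (x : ℂ → ℂ) : nn (fun z => conj (x z)) = nn x := nn_congr fun _ _ _ => by simp

theorem ip_cmul (t : ℝ) (x y : ℂ → ℂ) : ip (fun z => t * x z) y = t * ip x y := by
  simp only [ip, mul_assoc, integral_const_mul, re_ofReal_mul]

theorem ip_add {x y v : ℂ → ℂ} (hx : L2 x) (hy : L2 y) (hv : L2 v) :
    ip (fun z => x z + y z) v = ip x v + ip y v := by
  simp only [ip, add_mul]
  rw [integral_add (hx.int hv.conj) (hy.int hv.conj), add_re]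

theorem bd_om {r : ℂ → ℂ} (hr : Bd r) : ∃ C, 0 ≤ C ∧ ∀ z ∈ D, ‖om z * r z‖ ≤ (1 - ‖z‖ ^ 2) * C := by
  obtain ⟨C, hC⟩ := hr.2
  refine ⟨|C|, abs_nonneg _, fun z hz => ?_⟩
  rw [norm_mul, norm_om hz]
  exact mul_le_mul_of_nonneg_left ((hC z hz).trans (le_abs_self C)) (mem_D.mp hz).le

namespace Disc

variable {μ : ℝ} {f : ℂ → ℂ} {u : ℂ → ℝ} {w w₁ : ℂ → ℂ} (S : Disc μ f u w w₁)
include S

theorem poin {Ψ q B r : ℂ → ℂ} (hΨ : Pl Ψ) (hr : Pl r) (hd : ∀ z, HasW Ψ z (q z) (B z))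
    (he : ∀ z, Ψ z - conj (Ψ z) = om z * r z) :
    ∃ c : ℝ, μ * nn (fun z => deriv f z * (Ψ z - c)) ≤ 4 * nn q := by
  obtain ⟨hq, hB⟩ := hΨ.dA hd
  have ta := (hΨ.add hΨ.conj).test fun z => (hd z).add (hd z).conj
  have tb := (hΨ.sub hΨ.conj).test fun z => (hd z).sub (hd z).conj
  set m := mean f fun z => Ψ z + conj (Ψ z) with hm
  have hm' : conj m = m := by
    rw [hm, mean, ← integral_conj]
    exact int_congr fun z _ _ => by simp; ring
  have h1 := S.Pn (ta.add test_one _) (S.center ta.bd')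
  obtain ⟨C, -, hC⟩ := bd_om hr.bd
  have h2 := S.dir tb (C := C) (by simpa only [he] using hC)
  have h3 : nn q = nn B := by
    obtain ⟨_, _, A₁, E, B₂, -, -, -, hE, -, a⟩ := hΨ.d2
    have e1 := funext fun z => ((a z).1.unique (hd z)).1
    have e2 := funext fun z => ((a z).1.unique (hd z)).2
    subst e1 e2
    have hw := fun z => (hd z).sub (hd z).conj
    have hb := hΨ.sub hΨ.conj
    have i1 := (ibpP (hq.mul hr) (fun z => by rw [he]; ring) fun z => (a z).2.1.mul (hw z)).2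
    have i2 := (ibpP (hB.mul hr) (fun z => by rw [he]; ring) fun z => (a z).2.2.mul (hw z)).1
    have i3 := integral_sub ((hE.mul hb).add (hq.mul (hB.sub hq.conj))).int
      ((hE.mul hb).add (hB.mul (hq.sub hB.conj))).int
    rw [i1, i2] at i3
    apply ofReal_injective
    rw [nn_cast, nn_cast, ← sub_eq_zero, ← integral_sub (hq.mul hq.conj).int (hB.mul hB.conj).int,
      ← neg_eq_zero, ← integral_neg, ← sub_self (0 : ℂ), ← i3]
    exact int_congr fun z _ _ => by ring
  simp only [mul_zero, add_zero, mul_one, ← hm] at h1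
  have h4 := nn_par hq.l2 hB.conj.l2
  have h5 := nn_par hB.l2 hq.conj.l2
  rw [nn_conj] at h4 h5
  refine ⟨m.re / nn (deriv f) / 2, ?_⟩
  have h6 := nn_par (S.mf.mulb ((ta.bd'.add (Bd.const (-(m / nn (deriv f)))))))
    (S.mf.mulb tb.bd')
  have hc : m / nn (deriv f) = 2 * (m.re / nn (deriv f) / 2 : ℝ) := by
    rw [← conj_eq_iff_re.mp hm']; push_cast; simp; ring
  rw [hc] at h1 h6
  generalize m.re / nn (deriv f) / 2 = c at *
  rw [nn_congr (y := fun z => 2 * (deriv f z * (Ψ z - c))) fun z _ _ => by congr 2; ring,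
    nn_congr (x := fun z => _ - _) (y := fun z => 2 * (deriv f z * (Ψ z - c))) fun z _ _ => by
      rw [show deriv f z * (Ψ z + conj (Ψ z) + -(2 * c)) - deriv f z * (Ψ z - conj (Ψ z)) =
        2 * (deriv f z * conj (Ψ z - c)) by simp; ring]
      simp only [norm_mul, norm_conj], nn_cmul] at h6
  simp only [Complex.norm_ofNat] at h6
  have h7 : μ * (2 ^ 2 * nn (fun z => deriv f z * (Ψ z - c)) +
    2 ^ 2 * nn (fun z => deriv f z * (Ψ z - c))) = _ := congrArg (μ * ·) h6
  linarith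

theorem ground (hμ : 0 < μ) {x V : ℂ → ℂ} (hx : L2 x) (hV : L2 V)
    (bc : ∀ Ψ q B r : ℂ → ℂ, Pl Ψ → Pl r → (∀ z, HasW Ψ z (q z) (B z)) →
      (∀ z, Ψ z - conj (Ψ z) = om z * r z) →
      ip x q + ip V (fun z => conj (deriv f z) * Ψ z) = 0) : μ * nn x ≤ 4 * nn V := by
  refine le_of_forall_pos_le_add fun ε hε => ?_
  obtain ⟨q, hq, h1⟩ := dense hx (div_pos hε hμ)
  obtain ⟨Ψ, B, r, hΨ, hr, hd, he⟩ := hq.schwarz
  obtain ⟨c, hc⟩ := S.poin hΨ hr hd he
  have h2 := bc _ q B r (hΨ.sub (.const c)) hr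
    (fun z => ((hd z).sub (hasW_const c z)).of_eq (by ring) (by ring)) fun z => by
      rw [← he]; simp
  have h3 := amgm hV (S.mf.conj.mulb (hΨ.sub (.const c)).bd) (-(μ / 4))
  rw [nn_congr (x := fun z => conj (deriv f z) * (Ψ z - c)) (y := fun z => deriv f z * (Ψ z - c))
    fun z _ _ => by simp] at h3
  have h4 := nn_add hx hq.l2 (-1)
  simp only [ofReal_neg, ofReal_one, neg_mul, one_mul, ← sub_eq_add_neg] at h4
  rw [h4, le_div_iff₀ hμ] at h1
  have h5 := mul_le_mul_of_nonneg_left hc hμ.le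
  have h6 : ip V (fun z => conj (deriv f z) * (Ψ z - c)) = -ip x q := by linarith
  rw [h6] at h3
  nlinarith

theorem diamag (hμ : 0 < μ) {β r D₁ D₂ A B : ℂ → ℂ} (hr : Pl r) (e : ∀ z, β z = om z * r z)
    (h1 : Pl D₁) (h2 : Pl D₂) (hd : ∀ z, HasW β z (A z) (B z))
    (hE : ∀ z, A z * conj (β z) + β z * conj (B z) = conj (β z) * D₁ z + β z * conj (D₂ z)) :
    μ * nn (fun z => deriv f z * β z) ≤ 2 * (nn D₁ + nn D₂) := by
  have hβ : Pl β := (Pl.om.mul hr).of_eq e
  obtain ⟨C, hC0, hC⟩ := bd_om hr.bd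
  simp only [← e] at hC
  have hA := S.area_pos
  refine le_of_forall_pos_le_add fun δ hδ => ?_
  obtain ⟨ε, hε, hεδ⟩ : ∃ ε : ℝ, 0 < ε ∧ μ * (2 * ε * C * nn (deriv f)) ≤ δ :=
    ⟨δ / (μ * (2 * (C + 1) * nn (deriv f))), by positivity, by
      rw [show μ * (2 * (δ / (μ * (2 * (C + 1) * nn (deriv f)))) * C * nn (deriv f)) =
        δ * (C / (C + 1)) by field_simp]
      exact mul_le_of_le_one_right hδ.le ((div_le_one (by positivity)).mpr (by linarith))⟩
  let s : ℂ → ℝ := fun z => Real.sqrt (‖β z‖ ^ 2 + ε ^ 2)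
  have s2 : ∀ z, s z ^ 2 = ‖β z‖ ^ 2 + ε ^ 2 := fun z => Real.sq_sqrt (by positivity)
  have s0 : ∀ z, 0 < s z := fun z => Real.sqrt_pos.mpr (by positivity)
  have s1 : ∀ z, ε ≤ s z := fun z => Real.le_sqrt_of_sq_le (by nlinarith [norm_nonneg (β z)])
  have s3 : ∀ z, s z - ε ≤ ‖β z‖ := fun z => by
    have : s z ≤ ‖β z‖ + ε := Real.sqrt_le_iff.mpr ⟨by positivity, by nlinarith [norm_nonneg (β z)]⟩
    linarith
  have sc : Continuous s := by have := hβ.cont; fun_prop
  let E : ℂ → ℂ := fun z => (1 / (2 * s z) : ℝ) * (conj (β z) * D₁ z + β z * conj (D₂ z))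
  have cE : Continuous E := (continuous_ofReal.comp (continuous_const.div (continuous_const.mul sc)
    fun z => (mul_pos two_pos (s0 z)).ne')).mul ((hβ.conj.mul h1).add (hβ.mul h2.conj)).cont
  have nb : ∀ z, ‖((s z - ε : ℝ) : ℂ)‖ = s z - ε := fun z => by
    rw [norm_real, Real.norm_of_nonneg (sub_nonneg.mpr (s1 z))]
  have cb : Continuous fun z => ((s z - ε : ℝ) : ℂ) := by fun_prop
  have tb : Test (fun z => ((s z - ε : ℝ) : ℂ)) E fun z => conj (E z) := by
    refine ⟨fun z _ => ?_, (Bd.of_cont cb).2, (Bd.of_cont cE).l2, (Bd.of_cont cE).conj.l2⟩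
    have a1 : HasW (fun z => ((‖β z‖ ^ 2 : ℝ) : ℂ)) z _ _ :=
      ((hd z).mul (hd z).conj).congr (.of_forall fun y => nsq_cast _)
    refine (a1.comp_real (g := fun t => Real.sqrt (t + ε ^ 2) - ε)
      ((((hasDerivAt_id _).add_const _).sqrt (by positivity)).sub_const _)).of_eq ?_ ?_
    · simp only [E, ← hE, s]
    · simp only [E, ← hE, s, map_mul, map_add, conj_ofReal, conj_conj]; ring
  have key := S.dir tb (C := C) fun z hz => by rw [nb]; exact (s3 z).trans (hC z hz)
  have k1 : 2 * nn E ≤ nn D₁ + nn D₂ := by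
    rw [nn, nn, nn, ← integral_add h1.l2.sq h2.l2.sq, ← integral_const_mul]
    refine integral_mono (tb.mA.sq.const_mul _) (h1.l2.sq.add h2.l2.sq) fun z => ?_
    have a1 : ‖E z‖ ≤ (‖D₁ z‖ + ‖D₂ z‖) / 2 := by
      have a2 : ‖β z‖ ≤ s z := Real.le_sqrt_of_sq_le (by nlinarith)
      have := s0 z
      simp only [E, norm_mul, norm_real]
      rw [Real.norm_of_nonneg (by positivity), one_div, inv_mul_le_iff₀ (by positivity)]
      refine (norm_add_le _ _).trans ?_
      simp only [norm_mul, norm_conj]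
      nlinarith [norm_nonneg (D₁ z), norm_nonneg (D₂ z)]
    beta_reduce
    nlinarith [sq_nonneg (‖D₁ z‖ - ‖D₂ z‖), norm_nonneg (E z), norm_nonneg (D₁ z),
      norm_nonneg (D₂ z)]
  have k2 : nn (fun z => deriv f z * β z) ≤
      nn (fun z => deriv f z * ((s z - ε : ℝ) : ℂ)) + 2 * ε * C * nn (deriv f) := by
    rw [nn, nn, nn, ← integral_const_mul, ← integral_add (S.mf.mulb tb.bd').sq
      (S.mf.sq.const_mul _)]
    refine integral_mono_ae (S.mf.mulb hβ.bd).sq ((S.mf.mulb tb.bd').sq.add (S.mf.sq.const_mul _))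
      (ae_D fun z hz _ => ?_)
    simp only [norm_mul, nb, mul_pow]
    have a1 : s z - ε ≤ C := (s3 z).trans ((hC z hz).trans (by nlinarith [norm_nonneg z]))
    have a2 : ‖β z‖ ^ 2 ≤ (s z - ε) ^ 2 + 2 * ε * C := by nlinarith [s2 z]
    nlinarith [sq_nonneg ‖deriv f z‖]
  rw [nn_conj] at key
  nlinarith

theorem apriori (hμ : 0 < μ) {θ : ℝ}
    (hθ : ∀ z ∈ D, θ * μ * (‖deriv f z‖ ^ 2 * (1 - ‖z‖ ^ 2) ^ 2) ≤ 4) {s A B : ℂ → ℂ} (hs : Pl s)
    (hd : ∀ z, HasW s z (A z) (B z)) :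
    (1 + θ) * μ * nn (fun z => deriv f z * (om z * (om z * s z))) ≤
      4 * nn fun z => om z * (om z * A z - 3 * conj z * s z) := by
  obtain ⟨hA, hB⟩ := hs.dA hd
  have o := Pl.om
  have hL := (o.mul hA).sub (((Pl.const 3).mul .cj).mul hs)
  have hL' := (o.mul hB).sub (Pl.id.mul hs)
  have h1 := S.diamag hμ (o.mul hs) (fun z => rfl) (o.mul hL) (o.mul hL')
    (fun z => (hasW_om z).mul ((hasW_om z).mul (hd z))) fun z => by
      simp only [map_mul, map_add, map_sub, map_neg, conj_om]; ring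
  have h2 : θ * μ * nn (fun z => deriv f z * (om z * (om z * s z))) ≤
      4 * nn fun z => om z * s z := by
    rw [nn, nn, ← integral_const_mul, ← integral_const_mul]
    refine integral_mono_ae ((S.mf.mulb (o.mul (o.mul hs)).bd).sq.const_mul _)
      ((o.mul hs).l2.sq.const_mul _) (ae_D fun z hz _ => ?_)
    have := mul_le_mul_of_nonneg_right (hθ z hz) (sq_nonneg ‖om z * s z‖)
    rw [← norm_om hz] at this
    simp only [norm_mul] at this ⊢
    linarith
  have h3 : nn (fun z => om z * (om z * A z - 3 * conj z * s z)) =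
      nn (fun z => om z * (om z * B z - z * s z)) + 2 * nn fun z => om z * s z := by
    obtain ⟨_, _, A₁, E, B₂, -, -, -, hE, -, a⟩ := hs.d2
    have e1 := funext fun z => ((a z).1.unique (hd z)).1
    have e2 := funext fun z => ((a z).1.unique (hd z)).2
    subst e1 e2
    have d0 := fun z => (hasW_om z).mul ((hasW_om z).mul ((hasW_om z).mul (hd z).conj))
    have d1 := fun z => (d0 z).mul (((hasW_om z).mul (a z).2.1).sub
      (((hasW_conj z).cmul 3).mul (hd z)))
    have d2 := fun z => (d0 z).mul (((hasW_om z).mul (a z).2.2).sub ((hasW_id z).mul (hd z)))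
    have p0 := o.mul (o.mul hs.conj)
    have i3 := integral_sub (((o.mul p0).mul hL).dA d1).2.int (((o.mul p0).mul hL').dA d2).1.int
    rw [(ibpP (p0.mul hL) (fun z => by ring) d1).2, (ibpP (p0.mul hL') (fun z => by ring) d2).1]
      at i3
    apply ofReal_injective
    push_cast
    have q1 := (o.mul hL').mul (o.mul hL').conj
    have q2 := (Pl.const 2).mul ((o.mul hs).mul (o.mul hs).conj)
    rw [nn_cast, nn_cast, nn_cast, ← integral_const_mul, ← integral_add q1.int q2.int,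
      ← sub_eq_zero, ← integral_sub ((o.mul hL).mul (o.mul hL).conj).int (q1.add q2).int,
      ← sub_self (0 : ℂ), ← i3]
    refine int_congr fun z _ _ => ?_
    simp only [map_mul, map_sub, conj_om, conj_conj, map_ofNat]
    rw [om]
    ring
  linarith

theorem horm (hμ : 0 < μ) {θ : ℝ} (hθ1 : 1 < θ)
    (hθ : ∀ z ∈ D, θ * μ * (‖deriv f z‖ ^ 2 * (1 - ‖z‖ ^ 2) ^ 2) ≤ 4) {κ A y : ℂ → ℂ} (hκ : L2 κ)
    (hc : ContinuousOn κ D) (hd : ∀ z ∈ D, z ≠ 0 → HasW κ z (A z) (deriv f z * y z))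
    (hy : L2 fun z => om z * y z) {ε : ℝ} (hε : 0 < ε) : ∃ h, Hl h ∧
      (1 + θ) * μ * nn (fun z => om z * (κ z - h z)) ≤ 4 * nn (fun z => om z * y z) + ε := by
  have hk : 0 < (1 + θ) * μ := by positivity
  obtain ⟨q, hq, h1⟩ := dense hκ (div_pos hε hk)
  obtain ⟨h, s, A', B', hh, hs, ds, e⟩ := hq.split
  have h2 := S.apriori hμ hθ hs ds
  refine ⟨h, hh, ?_⟩
  have o := Pl.om
  have hL := (o.mul (hs.dA ds).1).sub (((Pl.const 3).mul .cj).mul hs)
  have d0 := fun z => (hasW_om z).mul ((hasW_om z).mul ((hasW_om z).mul (ds z).conj))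
  have p0 := o.mul (o.mul hs.conj)
  have le := o.bd.bmul (hκ.minus hq.l2)
  have lY := (o.mul hL).l2
  have lb := S.mf.conj.mulb (o.mul (o.mul hs)).bd
  have c1 : ip (fun z => om z * h z) (fun z => om z * (om z * A' z - 3 * conj z * s z)) = 0 := by
    obtain ⟨h', -, dh⟩ := hh.d
    rw [ip, int_congr fun z _ _ => ?_, (ibpP (p0.mul hh.pl) (fun z => by ring)
      fun z => (d0 z).mul (hasW_of (dh z))).2, zero_re]
    simp only [map_mul, map_sub, conj_om, conj_conj, map_ofNat]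
    ring
  have c2 : ip (fun z => om z * κ z) (fun z => om z * (om z * A' z - 3 * conj z * s z)) +
      ip (fun z => om z * y z) (fun z => conj (deriv f z) * (om z * (om z * s z))) = 0 := by
    have i1 := (o.bd.bmul hκ).int lY.conj
    have i2 := hy.int lb.conj
    have := ibp (B := fun z => om z * κ z * conj (om z * (om z * A' z - 3 * conj z * s z)) +
      om z * y z * conj (conj (deriv f z) * (om z * (om z * s z))))
      ((o.mul p0).cont.continuousOn.mul hc)
      (fun z hz h0 => ((d0 z).mul (hd z hz h0)).of_eq rfl (by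
        simp only [map_mul, map_sub, conj_om, conj_conj, map_ofNat]
        ring)) (i1.add i2)
      (p0.bd.bmul hκ).int1.norm fun z hz => by rw [Pi.mul_apply, mul_assoc, norm_mul, norm_om hz]
    rw [ip, ip, ← add_re, ← integral_add i1 i2, this, zero_re]
  have c3 := ip_add ((o.mul hh.pl).l2.plus lY) le lY
  rw [ip_add (o.mul hh.pl).l2 lY lY, c1, show (fun z => om z * h z + om z * (om z * A' z -
    3 * conj z * s z) + om z * (κ z - q z)) = fun z => om z * κ z from
    funext fun z => by rw [e]; ring] at c3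
  have c4 := nn_add1 lY le
  have c5 := nn_add lY lY (-1)
  rw [nn_congr (y := fun z => om z * (κ z - h z)) fun z _ _ => by rw [e]; congr 2; ring,
    ip_comm] at c4
  rw [nn_congr (y := fun z => 0 * 0) fun z _ _ => by simp, nn_cmul] at c5
  have c6 := amgm hy lb (-((1 + θ) * μ / 4))
  rw [nn_congr (x := fun z => conj (deriv f z) * (om z * (om z * s z)))
    (y := fun z => deriv f z * (om z * (om z * s z))) fun z _ _ => by simp] at c6
  have c7 : nn (fun z => om z * (κ z - q z)) ≤ nn fun z => κ z - q z :=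
    nn_mono (hκ.minus hq.l2) fun z hz _ => by
      rw [norm_mul, norm_om hz]
      exact mul_le_of_le_one_left (norm_nonneg _) (by nlinarith [norm_nonneg z])
  rw [le_div_iff₀ hk] at h1
  generalize (1 + θ) * μ = k at *
  have c8 := mul_le_mul_of_nonneg_left h2 hk.le
  have c9 := mul_le_mul_of_nonneg_left c7 hk.le
  simp only [norm_zero] at c5
  have c10 : ip (fun z => om z * y z) (fun z => conj (deriv f z) * (om z * (om z * s z))) =
    -(nn (fun z => om z * (om z * A' z - 3 * conj z * s z)) + ip (fun z => om z * (κ z - q z))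
      fun z => om z * (om z * A' z - 3 * conj z * s z)) := by linarith
  rw [c10] at c6
  rw [c4]
  nlinarith

end Disc

end Vale.Agent.P071
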