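import Vale.Agent.P071.Spec

/-! Integration by parts on the disc, and square integrable functions. -/

namespace Vale.Agent.P071

open MeasureTheory Complex Set Metric Filter Topology
open scoped ComplexConjugate

/-- `1 - |z|²` -/
def om (z : ℂ) : ℂ := 1 - z * conj z

theorem om_eq (z : ℂ) : om z = ((1 - ‖z‖ ^ 2 : ℝ) : ℂ) := by
  rw [om, mul_conj, normSq_eq_norm_sq]; push_cast; rfl

theorem conj_om (z : ℂ) : conj (om z) = om z := by rw [om_eq, conj_ofReal]

theorem mem_D {z : ℂ} : z ∈ D ↔ 0 < 1 - ‖z‖ ^ 2 := by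
  rw [mem_ball_zero_iff, sub_pos, sq_lt_one_iff₀ (norm_nonneg _)]

theorem norm_om {z : ℂ} (hz : z ∈ D) : ‖om z‖ = 1 - ‖z‖ ^ 2 := by
  rw [om_eq, norm_real, Real.norm_of_nonneg (mem_D.mp hz).le]

theorem hasW_om (z : ℂ) : HasW om z (-conj z) (-z) :=
  ((hasW_const 1 z).sub ((hasW_id z).mul (hasW_conj z))).of_eq (by ring) (by ring)

theorem HasW.comp_real {r : ℂ → ℝ} {g : ℝ → ℝ} {c : ℝ} {z A B : ℂ}
    (h : HasW (fun z => (r z : ℂ)) z A B) (hg : HasDerivAt g c (r z)) :
    HasW (fun z => (g (r z) : ℂ)) z (c * A) (c * B) := by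
  have h1 : HasFDerivAt r (reCLM.comp (wl A B)) z := by
    simpa [Function.comp_def] using reCLM.hasFDerivAt.comp z h
  have h2 := HasFDerivAt.unique h (ofRealCLM.hasFDerivAt.comp z h1)
  refine (ofRealCLM.hasFDerivAt.comp z (hg.hasFDerivAt.comp z h1)).congr_fderiv ?_
  ext1 x
  have := congrArg (· x) h2
  simp only [wl_apply, ContinuousLinearMap.comp_apply, reCLM_apply, ofRealCLM_apply] at this
  simp only [wl_apply, ContinuousLinearMap.comp_apply, reCLM_apply, ofRealCLM_apply,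
    ContinuousLinearMap.toSpanSingleton_apply, smul_eq_mul, ofReal_mul, ← this]
  ring

theorem mD : MeasurableSet D := measurableSet_ball

instance : IsFiniteMeasure (volume.restrict D) :=
  isFiniteMeasure_restrict.mpr measure_ball_lt_top.ne

theorem ae_D {P : ℂ → Prop} (h : ∀ z ∈ D, z ≠ 0 → P z) : ∀ᵐ z ∂(volume.restrict D), P z := by
  filter_upwards [ae_restrict_mem mD, ae_restrict_of_ae (Measure.ae_ne volume (0 : ℂ))] with z h1 h2
  exact h z h1 h2

theorem int_congr {E : Type} [NormedAddCommGroup E] [NormedSpace ℝ E] {x y : ℂ → E}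
    (h : ∀ z ∈ D, z ≠ 0 → x z = y z) : ∫ z in D, x z = ∫ z in D, y z :=
  integral_congr_ae (ae_D h)

theorem ibp {Φ A B : ℂ → ℂ} {G : ℂ → ℝ} (hc : ContinuousOn Φ D)
    (hd : ∀ z ∈ D, z ≠ 0 → HasW Φ z (A z) (B z)) (hB : IntegrableOn B D) (hG : IntegrableOn G D)
    (hΦ : ∀ z ∈ D, ‖Φ z‖ ≤ (1 - ‖z‖ ^ 2) * G z) : ∫ z in D, B z = 0 := by
  set θ := Real.smoothTransition
  have hθ : ContDiff ℝ 1 θ := Real.smoothTransition.contDiff (n := 1)
  have d0 : ∀ t, t < 0 → deriv θ t = 0 := fun t ht => by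
    rw [Filter.EventuallyEq.deriv_eq (f := fun _ => 0), deriv_const]
    filter_upwards [Iio_mem_nhds ht] with s hs using Real.smoothTransition.zero_of_nonpos hs.le
  have d1 : ∀ t, 1 < t → deriv θ t = 0 := fun t ht => by
    rw [Filter.EventuallyEq.deriv_eq (f := fun _ => 1), deriv_const]
    filter_upwards [Ioi_mem_nhds ht] with s hs using Real.smoothTransition.one_of_one_le hs.le
  have dc : Continuous (deriv θ) := hθ.continuous_deriv le_rfl
  obtain ⟨C, hC⟩ := dc.bounded_above_of_compact_support (HasCompactSupport.intro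
    (isCompact_Icc (a := 0) (b := 1)) fun t ht => by
      rw [mem_Icc, not_and_or, not_le, not_le] at ht
      exact ht.elim (d0 t) (d1 t))
  have hC0 : 0 ≤ C := (norm_nonneg _).trans (hC 0)
  let r : ℕ → ℂ → ℝ := fun n z => (n + 1) * (1 - ‖z‖ ^ 2) - 1
  have rc : ∀ n, Continuous (r n) := fun n => by fun_prop
  have rD : ∀ n z, 0 ≤ r n z → z ∈ D := fun n z h => mem_D.mpr (by
    by_contra h1
    have : (n + 1 : ℝ) * (1 - ‖z‖ ^ 2) ≤ 0 := mul_nonpos_of_nonneg_of_nonpos (by positivity)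
      (not_lt.mp h1)
    simp only [r] at h
    linarith)
  let F : ℕ → ℂ → ℂ := fun n z => ((deriv θ (r n z) : ℝ) : ℂ) * ((n + 1) * -z) * Φ z + θ (r n z) * B z
  have mF : ∀ n, AEStronglyMeasurable (F n) (volume.restrict D) := fun n => by
    refine AEStronglyMeasurable.add (AEStronglyMeasurable.mul ?_ (hc.aestronglyMeasurable mD))
      (AEStronglyMeasurable.mul ?_ hB.1) <;> refine Continuous.aestronglyMeasurable ?_
    · exact (continuous_ofReal.comp (dc.comp (rc n))).mul (by fun_prop)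
    · exact continuous_ofReal.comp (hθ.continuous.comp (rc n))
  have bF : ∀ n, ∀ᵐ z ∂(volume.restrict D), ‖F n z‖ ≤ 2 * C * |G z| + ‖B z‖ := fun n =>
    ae_D fun z hz _ => by
      refine (norm_add_le _ _).trans (add_le_add ?_ ?_)
      · by_cases h : 1 < r n z
        · simp only [d1 _ h]; simp; positivity
        · have h1 := hΦ z hz
          have h2 : ‖z‖ ≤ 1 := (mem_ball_zero_iff.mp hz).le
          have h3 := mem_D.mp hz
          have h4 : ‖Φ z‖ ≤ (1 - ‖z‖ ^ 2) * |G z| := h1.trans (by gcongr; exact le_abs_self _)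
          have h5 : ‖((n : ℂ) + 1) * -z‖ ≤ n + 1 := by
            rw [norm_mul, norm_neg, show ((n : ℂ) + 1) = ((n + 1 : ℝ) : ℂ) by simp, norm_real,
              Real.norm_of_nonneg (by positivity)]
            exact mul_le_of_le_one_right (by positivity) h2
          rw [norm_mul, norm_mul, norm_real]
          simp only [r, not_lt] at h
          calc _ ≤ C * (n + 1) * ((1 - ‖z‖ ^ 2) * |G z|) := by gcongr; exact hC _
            _ = C * |G z| * ((n + 1) * (1 - ‖z‖ ^ 2)) := by ring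
            _ ≤ C * |G z| * 2 := by gcongr; linarith
            _ = _ := by ring
      · rw [norm_mul, norm_real, Real.norm_of_nonneg (Real.smoothTransition.nonneg _)]
        exact mul_le_of_le_one_left (norm_nonneg _) (Real.smoothTransition.le_one _)
  have iG : Integrable (fun z => 2 * C * |G z| + ‖B z‖) (volume.restrict D) :=
    (hG.abs.const_mul _).add hB.norm
  have z0 : ∀ n z, r n z < 0 → (fun z => (θ (r n z) : ℂ) * Φ z) =ᶠ[𝓝 z] fun _ => 0 := fun n z h => by
    filter_upwards [(isOpen_lt (rc n) continuous_const).mem_nhds h] with y hy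
    simp [θ, Real.smoothTransition.zero_of_nonpos (le_of_lt hy)]
  have F0 : ∀ n z, r n z < 0 → F n z = 0 := fun n z h => by
    simp [F, θ, d0 _ h, Real.smoothTransition.zero_of_nonpos h.le]
  have key : ∀ n, ∫ z in D, F n z = 0 := fun n => by
    have hz : ∀ z, z ∉ D → F n z = 0 := fun z hz => F0 n z (not_le.mp fun h => hz (rD n z h))
    rw [setIntegral_eq_integral_of_forall_compl_eq_zero hz]
    refine ibp_compact (Φ := fun z => (θ (r n z) : ℂ) * Φ z)
      (A := fun z => ((deriv θ (r n z) : ℝ) : ℂ) * ((n + 1) * -conj z) * Φ z + θ (r n z) * A z)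
      (continuous_iff_continuousAt.mpr fun z => ?_) (HasCompactSupport.intro
        (isCompact_closedBall 0 1) fun z hz => ?_) (fun z hz => ?_) ?_
    · rcases lt_or_ge (r n z) 0 with h | h
      · exact continuousAt_const.congr (z0 n z h).symm
      · exact (continuous_ofReal.comp (hθ.continuous.comp (rc n))).continuousAt.mul
          (hc.continuousAt (isOpen_ball.mem_nhds (rD n z h)))
    · exact (z0 n z (not_le.mp fun h => hz (ball_subset_closedBall (rD n z h)))).self_of_nhds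
    · rcases lt_or_ge (r n z) 0 with h | h
      · refine ((hasW_const 0 z).congr (z0 n z h)).of_eq ?_ (F0 n z h)
        simp [θ, d0 _ h, Real.smoothTransition.zero_of_nonpos h.le]
      · have h1 : HasW (fun z => (r n z : ℂ)) z ((n + 1) * -conj z) ((n + 1) * -z) :=
          ((((hasW_om z).cmul (n + 1)).sub (hasW_const 1 z)).congr (.of_forall fun y => by
            simp [r, om_eq])).of_eq (by ring) (by ring)
        exact (h1.comp_real (hθ.differentiable one_ne_zero _).hasDerivAt).mul (hd z (rD n z h) hz)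
    · exact (integrableOn_iff_integrable_of_support_subset fun z h => by
        by_contra h'; exact h (hz z h')).mp (iG.mono' (mF n) (bF n))
  have lim := tendsto_integral_of_dominated_convergence (f := B) _ mF iG bF (ae_D fun z hz _ => by
    refine tendsto_const_nhds.congr' ?_
    have : Tendsto (fun n : ℕ => r n z) atTop atTop :=
      tendsto_atTop_add_const_right _ _ ((tendsto_atTop_add_const_right _ _
        tendsto_natCast_atTop_atTop).atTop_mul_const (mem_D.mp hz))
    filter_upwards [this.eventually_gt_atTop 1] with n hn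
    simp [F, θ, d1 _ hn, Real.smoothTransition.one_of_one_le hn.le])
  simp only [key] at lim
  exact tendsto_nhds_unique lim tendsto_const_nhds

theorem ibpA {Φ A B : ℂ → ℂ} {G : ℂ → ℝ} (hc : ContinuousOn Φ D)
    (hd : ∀ z ∈ D, z ≠ 0 → HasW Φ z (A z) (B z)) (hA : IntegrableOn A D) (hG : IntegrableOn G D)
    (hΦ : ∀ z ∈ D, ‖Φ z‖ ≤ (1 - ‖z‖ ^ 2) * G z) : ∫ z in D, A z = 0 := by
  have := ibp (continuous_conj.comp_continuousOn hc) (fun z hz h0 => (hd z hz h0).conj)
    ((conjCLE : ℂ →L[ℝ] ℂ).integrable_comp hA) hG (by simpa using hΦ)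
  rwa [integral_conj, map_eq_zero] at this

/-- bounded measurable functions on the disc -/
def Bd (b : ℂ → ℂ) : Prop :=
  AEStronglyMeasurable b (volume.restrict D) ∧ ∃ C, ∀ z ∈ D, ‖b z‖ ≤ C

section
variable {a b x y : ℂ → ℂ}

theorem Bd.of_cont (h : Continuous b) : Bd b := ⟨h.aestronglyMeasurable, by
  obtain ⟨C, hC⟩ := (isCompact_closedBall (0 : ℂ) 1).exists_bound_of_continuousOn h.continuousOn
  exact ⟨C, fun z hz => hC z (ball_subset_closedBall hz)⟩⟩

theorem Bd.mul (h : Bd a) (h' : Bd b) : Bd fun z => a z * b z := ⟨h.1.mul h'.1, by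
  obtain ⟨C, hC⟩ := h.2
  obtain ⟨C', hC'⟩ := h'.2
  exact ⟨C * C', fun z hz => norm_mul_le_of_le (hC z hz) (hC' z hz)⟩⟩

theorem Bd.add (h : Bd a) (h' : Bd b) : Bd fun z => a z + b z := ⟨h.1.add h'.1, by
  obtain ⟨C, hC⟩ := h.2
  obtain ⟨C', hC'⟩ := h'.2
  exact ⟨C + C', fun z hz => norm_add_le_of_le (hC z hz) (hC' z hz)⟩⟩

theorem Bd.const (c : ℂ) : Bd fun _ => c := .of_cont continuous_const

theorem Bd.sub (h : Bd a) (h' : Bd b) : Bd fun z => a z - b z := by
  simpa [sub_eq_add_neg] using h.add ((Bd.const (-1)).mul h')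

theorem Bd.conj (h : Bd b) : Bd fun z => conj (b z) :=
  ⟨continuous_conj.comp_aestronglyMeasurable h.1, by simpa using h.2⟩

theorem Bd.l2 (h : Bd b) : L2 b := by
  obtain ⟨C, hC⟩ := h.2
  exact MemLp.of_bound h.1 C (ae_D fun z hz _ => hC z hz)

theorem Bd.bmul (h : Bd b) (hx : L2 x) : L2 fun z => b z * x z := by
  obtain ⟨C, hC⟩ := h.2
  exact hx.of_le_mul (c := C) (h.1.mul hx.1) (ae_D fun z hz _ => by
    rw [norm_mul]; gcongr; exact hC z hz)

theorem L2.mulb (hx : L2 x) (h : Bd b) : L2 fun z => x z * b z := by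
  simpa [mul_comm] using h.bmul hx

theorem L2.cmul (c : ℂ) (hx : L2 x) : L2 fun z => c * x z := hx.const_mul c
theorem L2.plus (hx : L2 x) (hy : L2 y) : L2 fun z => x z + y z := hx.add hy
theorem L2.minus (hx : L2 x) (hy : L2 y) : L2 fun z => x z - y z := hx.sub hy
theorem L2.conj (hx : L2 x) : L2 fun z => conj (x z) := hx.star
theorem L2.int (hx : L2 x) (hy : L2 y) : IntegrableOn (fun z => x z * y z) D := hx.integrable_mul hy
theorem L2.int1 (hx : L2 x) : IntegrableOn x D := hx.integrable (by norm_num)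
theorem L2.sq (hx : L2 x) : IntegrableOn (fun z => ‖x z‖ ^ 2) D :=
  (memLp_two_iff_integrable_sq_norm hx.1).mp hx

theorem L2.congr (hx : L2 x) (h : ∀ z ∈ D, z ≠ 0 → y z = x z) : L2 y :=
  (memLp_congr_ae (ae_D h)).mpr hx

theorem L2.of_z (hc : ContinuousOn x D) (h : L2 fun z => z * x z) : L2 x := by
  obtain ⟨C, hC⟩ := (isCompact_closedBall (0 : ℂ) (1 / 2)).exists_bound_of_continuousOn
    (hc.mono (closedBall_subset_ball (by norm_num)))
  refine ((memLp_const (p := 2) |C|).add (h.norm.const_mul 2)).mono' (hc.aestronglyMeasurable mD)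
    (ae_D fun z _ _ => ?_)
  simp only [Pi.add_apply, norm_mul]
  by_cases hz : ‖z‖ ≤ 1 / 2
  · have := (hC z (mem_closedBall_zero_iff.mpr hz)).trans (le_abs_self C)
    have : 0 ≤ ‖z‖ * ‖x z‖ := by positivity
    linarith
  · nlinarith [abs_nonneg C, norm_nonneg (x z)]

/-- squared norm -/
noncomputable def nn (x : ℂ → ℂ) : ℝ := ∫ z in D, ‖x z‖ ^ 2

/-- real inner product -/
noncomputable def ip (x y : ℂ → ℂ) : ℝ := (∫ z in D, x z * conj (y z)).re

theorem nn_nonneg (x : ℂ → ℂ) : 0 ≤ nn x := integral_nonneg fun _ => by positivity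

theorem ip_eq (hx : L2 x) (hy : L2 y) : ip x y = ∫ z in D, (x z * conj (y z)).re :=
  (integral_re (hx.int hy.conj)).symm

theorem nsq (a b : ℂ) (t : ℝ) : ‖a + t * b‖ ^ 2 = ‖a‖ ^ 2 + 2 * t * (a * conj b).re + t ^ 2 * ‖b‖ ^ 2 := by
  simp only [← normSq_eq_norm_sq, normSq_apply]; simp; ring

theorem nn_add (hx : L2 x) (hy : L2 y) (t : ℝ) :
    nn (fun z => x z + t * y z) = nn x + 2 * t * ip x y + t ^ 2 * nn y := by
  have h : IntegrableOn (fun z => (x z * conj (y z)).re) D := (hx.int hy.conj).re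
  simp only [nn, nsq, ip_eq hx hy]
  have h1 : IntegrableOn (fun z => ‖x z‖ ^ 2 + 2 * t * (x z * conj (y z)).re) D :=
    hx.sq.add (h.const_mul _)
  rw [integral_add h1 (hy.sq.const_mul _), integral_add hx.sq
    (h.const_mul _), integral_const_mul, integral_const_mul]

theorem amgm (hx : L2 x) (hy : L2 y) (t : ℝ) : 2 * t * ip x y ≤ nn x + t ^ 2 * nn y := by
  have := nn_nonneg fun z => x z + (-t : ℝ) * y z
  rw [nn_add hx hy] at this
  linarith

theorem nn_congr (h : ∀ z ∈ D, z ≠ 0 → ‖x z‖ ^ 2 = ‖y z‖ ^ 2) : nn x = nn y := int_congr h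

theorem nn_mono (hy : L2 y) (h : ∀ z ∈ D, z ≠ 0 → ‖x z‖ ≤ ‖y z‖) : nn x ≤ nn y :=
  integral_mono_of_nonneg (.of_forall fun _ => by positivity) hy.sq (ae_D fun z hz h0 => by
    have := h z hz h0
    beta_reduce
    gcongr)

theorem nn_cmul (c : ℂ) (x : ℂ → ℂ) : nn (fun z => c * x z) = ‖c‖ ^ 2 * nn x := by
  simp only [nn, norm_mul, mul_pow, integral_const_mul]

theorem ibp_om {Ξ A B : ℂ → ℂ} (hc : ContinuousOn Ξ D)
    (hd : ∀ z ∈ D, z ≠ 0 → HasW Ξ z (A z) (B z)) (hΞ : IntegrableOn Ξ D) :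
    (IntegrableOn (fun z => om z * B z) D → ∫ z in D, (om z * B z - z * Ξ z) = 0) ∧
    (IntegrableOn (fun z => om z * A z) D → ∫ z in D, (om z * A z - conj z * Ξ z) = 0) := by
  have c1 : ContinuousOn (fun z => om z * Ξ z) D :=
    ContinuousOn.mul (by unfold om; fun_prop) hc
  have h1 : ∀ z ∈ D, z ≠ 0 → HasW (fun z => om z * Ξ z) z (om z * A z - conj z * Ξ z)
      (om z * B z - z * Ξ z) := fun z hz h0 =>
    ((hasW_om z).mul (hd z hz h0)).of_eq (by ring) (by ring)
  have h2 : ∀ z ∈ D, ‖om z * Ξ z‖ ≤ (1 - ‖z‖ ^ 2) * ‖Ξ z‖ := fun z hz => by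
    rw [norm_mul, norm_om hz]
  have h3 : ∀ {b : ℂ → ℂ}, Continuous b → IntegrableOn (fun z => b z * Ξ z) D := fun hb => by
    obtain ⟨C, hC⟩ := (Bd.of_cont hb).2
    exact hΞ.bdd_mul hb.aestronglyMeasurable (ae_D fun z hz _ => hC z hz)
  exact ⟨fun h => ibp c1 h1 (h.sub (h3 continuous_id)) hΞ.norm h2,
    fun h => ibpA c1 h1 (h.sub (h3 continuous_conj)) hΞ.norm h2⟩

end

end Vale.Agent.P071
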