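import Vale.Agent.P071.Ibp

/-! Polynomials in `z` and its conjugate. -/

namespace Vale.Agent.P071

open MeasureTheory Complex Set Metric Filter Topology
open scoped ComplexConjugate

/-- polynomials in `z` and `conj z` -/
inductive Pl : (ℂ → ℂ) → Prop
  | mono (c : ℂ) (m n : ℕ) : Pl fun z => c * z ^ m * conj z ^ n
  | add {p q : ℂ → ℂ} : Pl p → Pl q → Pl fun z => p z + q z

/-- holomorphic polynomials -/
inductive Hl : (ℂ → ℂ) → Prop
  | mono (c : ℂ) (m : ℕ) : Hl fun z => c * z ^ m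
  | add {p q : ℂ → ℂ} : Hl p → Hl q → Hl fun z => p z + q z

variable {p q : ℂ → ℂ}

theorem Pl.of_eq (h : Pl p) (e : ∀ z, q z = p z) : Pl q := by rwa [funext e]

theorem Pl.const (c : ℂ) : Pl fun _ => c := (Pl.mono c 0 0).of_eq (by simp)
theorem Pl.id : Pl fun z => z := (Pl.mono 1 1 0).of_eq (by simp)
theorem Pl.cj : Pl fun z => conj z := (Pl.mono 1 0 1).of_eq (by simp)

theorem Pl.mul (h : Pl p) (h' : Pl q) : Pl fun z => p z * q z := by
  induction h with
  | mono c m n =>
    induction h' with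
    | mono c' m' n' => exact (Pl.mono (c * c') (m + m') (n + n')).of_eq fun z => by ring
    | add _ _ i1 i2 => exact (i1.add i2).of_eq fun z => by ring
  | add _ _ i1 i2 => exact (i1.add i2).of_eq fun z => by ring

theorem Pl.sub (h : Pl p) (h' : Pl q) : Pl fun z => p z - q z :=
  (h.add ((Pl.const (-1)).mul h')).of_eq fun z => by ring

theorem Pl.conj (h : Pl p) : Pl fun z => conj (p z) := by
  induction h with
  | mono c m n => exact (Pl.mono (conj c) n m).of_eq fun z => by simp; ring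
  | add _ _ i1 i2 => exact (i1.add i2).of_eq fun z => by simp

theorem Pl.om : Pl om := (Pl.const 1).sub (Pl.id.mul Pl.cj)

theorem Pl.cont (h : Pl p) : Continuous p := by
  induction h with
  | mono c m n => fun_prop
  | add _ _ i1 i2 => exact i1.add i2

theorem Pl.bd (h : Pl p) : Bd p := .of_cont h.cont
theorem Pl.l2 (h : Pl p) : L2 p := h.bd.l2
theorem Pl.int (h : Pl p) : IntegrableOn p D := h.l2.int1

theorem Hl.pl (h : Hl p) : Pl p := by
  induction h with
  | mono c m => exact (Pl.mono c m 0).of_eq (by simp)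
  | add _ _ i1 i2 => exact i1.add i2

theorem Hl.cmul (c : ℂ) (h : Hl p) : Hl fun z => c * p z := by
  induction h with
  | mono c' m => simpa [mul_assoc] using Hl.mono (c * c') m
  | add _ _ i1 i2 => simpa [mul_add] using i1.add i2

theorem hasW_mono (c : ℂ) (m n : ℕ) (z : ℂ) : HasW (fun z => c * z ^ m * conj z ^ n) z
    (c * m * z ^ (m - 1) * conj z ^ n) (c * n * z ^ m * conj z ^ (n - 1)) :=
  ((((hasW_of (hasDerivAt_pow m z)).cmul c).mul (hasW_of (hasDerivAt_pow n z)).conj).congr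
    (.of_forall fun y => by simp)).of_eq (by simp [mul_assoc]) (by simp; ring)

theorem Pl.d2 (h : Pl p) : ∃ A B A₁ C B₂, Pl A ∧ Pl B ∧ Pl A₁ ∧ Pl C ∧ Pl B₂ ∧ ∀ z,
    HasW p z (A z) (B z) ∧ HasW A z (A₁ z) (C z) ∧ HasW B z (C z) (B₂ z) := by
  induction h with
  | mono c m n =>
    exact ⟨_, _, _, _, _, .mono _ _ _, .mono _ _ _, .mono _ _ _, .mono _ _ _, .mono _ _ _, fun z =>
      ⟨hasW_mono c m n z, hasW_mono _ _ _ z, (hasW_mono _ _ _ z).of_eq (by ring) rfl⟩⟩
  | add _ _ i1 i2 =>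
    obtain ⟨_, _, _, _, _, a1, a2, a3, a4, a5, a⟩ := i1
    obtain ⟨_, _, _, _, _, b1, b2, b3, b4, b5, b⟩ := i2
    exact ⟨_, _, _, _, _, a1.add b1, a2.add b2, a3.add b3, a4.add b4, a5.add b5, fun z =>
      ⟨(a z).1.add (b z).1, (a z).2.1.add (b z).2.1, (a z).2.2.add (b z).2.2⟩⟩

theorem Pl.dA {A B : ℂ → ℂ} (h : Pl p) (hd : ∀ z, HasW p z (A z) (B z)) : Pl A ∧ Pl B := by
  obtain ⟨_, _, _, _, _, a1, a2, -, -, -, a⟩ := h.d2
  exact ⟨a1.of_eq fun z => ((hd z).unique (a z).1).1, a2.of_eq fun z => ((hd z).unique (a z).1).2⟩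

theorem Hl.d (h : Hl p) : ∃ p', Hl p' ∧ ∀ z, HasDerivAt p (p' z) z := by
  induction h with
  | mono c m => exact ⟨_, .mono (c * m) (m - 1), fun z =>
      ((hasDerivAt_pow m z).const_mul c).congr_deriv (by ring)⟩
  | add _ _ i1 i2 =>
    obtain ⟨_, a1, a⟩ := i1
    obtain ⟨_, b1, b⟩ := i2
    exact ⟨_, a1.add b1, fun z => (a z).add (b z)⟩

theorem Hl.prim (h : Hl p) : ∃ γ γ' : ℂ → ℂ, Hl γ ∧ (∀ z, HasDerivAt γ (γ' z) z) ∧
    ∀ z, γ z + z * γ' z = z * p z := by
  induction h with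
  | mono c m =>
    refine ⟨_, _, .mono (c / (m + 2)) (m + 1), fun z => (hasDerivAt_pow (m + 1) z).const_mul _,
      fun z => ?_⟩
    have : (m + 2 : ℂ) ≠ 0 := by exact_mod_cast (show m + 2 ≠ 0 by omega)
    simp only [Nat.add_sub_cancel]
    push_cast
    field_simp
    ring
  | add _ _ i1 i2 =>
    obtain ⟨_, _, a1, a2, a⟩ := i1
    obtain ⟨_, _, b1, b2, b⟩ := i2
    exact ⟨_, _, a1.add b1, fun z => (a2 z).add (b2 z), fun z => by
      linear_combination a z + b z⟩

theorem pow_om (j : ℕ) : ∃ r, Pl r ∧ ∀ z, (z * conj z) ^ j = 1 - om z * r z := by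
  induction j with
  | zero => exact ⟨_, .const 0, by simp⟩
  | succ j ih =>
    obtain ⟨r, h1, h2⟩ := ih
    exact ⟨_, (Pl.const 1).add (h1.mul (Pl.id.mul Pl.cj)), fun z => by
      rw [pow_succ, h2, om]; ring⟩

/-- the Schwarz problem for polynomial data -/
theorem Pl.schwarz (h : Pl q) : ∃ Ψ B r : ℂ → ℂ, Pl Ψ ∧ Pl r ∧ (∀ z, HasW Ψ z (q z) (B z)) ∧
    ∀ z, Ψ z - conj (Ψ z) = P071.om z * r z := by
  induction h with
  | mono c m n =>
    have hm : (m + 1 : ℂ) ≠ 0 := by exact_mod_cast (show m + 1 ≠ 0 by omega)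
    rcases le_or_gt n m with h | h
    · obtain ⟨k, rfl⟩ := Nat.exists_eq_add_of_le h
      obtain ⟨r, h1, h2⟩ := pow_om n
      refine ⟨_, _, _, (Pl.mono (c / ((n + k : ℕ) + 1)) (n + k + 1) n).add
        (.mono (conj (c / ((n + k : ℕ) + 1))) 0 (k + 1)),
        ((Pl.mono (conj (c / ((n + k : ℕ) + 1))) 0 (k + 1)).mul h1.conj).sub
          ((Pl.mono (c / ((n + k : ℕ) + 1)) (k + 1) 0).mul h1),
        fun z => ((hasW_mono _ _ _ z).add (hasW_mono _ _ _ z)).of_eq ?_ rfl, fun z => ?_⟩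
      · simp only [Nat.add_sub_cancel]
        push_cast at hm ⊢
        field_simp
        ring
      · have h3 := congrArg conj (h2 z)
        simp only [map_pow, map_mul, map_sub, map_one, conj_conj, conj_om] at h3
        simp only [map_pow, map_mul, map_add, conj_conj]
        generalize c / ((n + k : ℕ) + 1) = d
        linear_combination d * z ^ (k + 1) * h2 z - conj d * conj z ^ (k + 1) * h3
    · obtain ⟨k, rfl⟩ := Nat.exists_eq_add_of_lt h
      obtain ⟨r, h1, h2⟩ := pow_om (m + 1)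
      refine ⟨_, _, _, (Pl.mono (c / (m + 1)) (m + 1) (m + k + 1)).sub (.mono (c / (m + 1)) 0 k),
        ((Pl.mono (conj (c / (m + 1))) k 0).mul h1.conj).sub ((Pl.mono (c / (m + 1)) 0 k).mul h1),
        fun z => ((hasW_mono _ _ _ z).sub (hasW_mono _ _ _ z)).of_eq ?_ rfl, fun z => ?_⟩
      · simp only [Nat.add_sub_cancel]
        push_cast
        field_simp
        ring
      · have h3 := congrArg conj (h2 z)
        simp only [map_pow, map_mul, map_sub, map_one, conj_conj, conj_om] at h3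
        simp only [map_pow, map_mul, map_sub, conj_conj]
        generalize c / (m + 1) = d
        linear_combination d * conj z ^ k * h2 z - conj d * z ^ k * h3
  | add _ _ i1 i2 =>
    obtain ⟨_, _, _, a1, a2, a3, a⟩ := i1
    obtain ⟨_, _, _, b1, b2, b3, b⟩ := i2
    exact ⟨_, _, _, a1.add b1, a2.add b2, fun z => (a3 z).add (b3 z), fun z => by
      rw [map_add]; linear_combination a z + b z⟩

/-- the orthogonal decomposition for the weight `(1 - |z|²)²` -/
theorem Pl.split (h : Pl q) : ∃ g s A B : ℂ → ℂ, Hl g ∧ Pl s ∧ (∀ z, HasW s z (A z) (B z)) ∧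
    ∀ z, q z = g z + (P071.om z * A z - 3 * conj z * s z) := by
  induction h with
  | mono c m n =>
    induction n generalizing c m with
    | zero => exact ⟨_, _, _, _, .mono c m, .const 0, hasW_const 0, by simp⟩
    | succ n ih =>
      have hm : (m + 3 : ℂ) ≠ 0 := by exact_mod_cast (show m + 3 ≠ 0 by omega)
      obtain ⟨g, s, A, B, h1, h2, h3, h4⟩ := ih (c / (m + 3) * m) (m - 1)
      refine ⟨g, _, _, _, h1, h2.sub (.mono (c / (m + 3)) m n),
        fun z => (h3 z).sub (hasW_mono _ _ _ z), fun z => ?_⟩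
      have h5 : (m : ℂ) * z ^ (m - 1) * z = m * z ^ m := by
        cases m <;> simp [pow_succ, mul_assoc]
      have h6 : c = c / (m + 3) * (m + 3) := by field_simp
      have h7 := h4 z
      generalize c / (m + 3) = d at *
      rw [h6, P071.om] at *
      linear_combination h7 - d * conj z ^ (n + 1) * h5
  | add _ _ i1 i2 =>
    obtain ⟨_, _, _, _, a1, a2, a3, a⟩ := i1
    obtain ⟨_, _, _, _, b1, b2, b3, b⟩ := i2
    exact ⟨_, _, _, _, a1.add b1, a2.add b2, fun z => (a3 z).add (b3 z), fun z => by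
      linear_combination a z + b z⟩

theorem nn_add_le {x y : ℂ → ℂ} (hx : L2 x) (hy : L2 y) :
    nn (fun z => x z + y z) ≤ 2 * nn x + 2 * nn y := by
  have h1 := nn_add hx hy 1
  have h2 := amgm hx hy 1
  simp only [ofReal_one, one_mul] at h1
  linarith

theorem dense {x : ℂ → ℂ} (hx : L2 x) {ε : ℝ} (hε : 0 < ε) :
    ∃ q, Pl q ∧ nn (fun z => x z - q z) ≤ ε := by
  obtain ⟨g, h1, -⟩ := MemLp.exists_boundedContinuous_integral_rpow_sub_le (p := 2) two_pos
    (f := x) (μ := volume.restrict D) (by simpa using hx) (ε := ε / 4) (by positivity)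
  set v := nn fun _ => 1
  have hv : 0 ≤ v := nn_nonneg _
  set δ := Real.sqrt (ε / 4 / (v + 1))
  have hδ : 0 < δ := Real.sqrt_pos.mpr (by positivity)
  let K := closedBall (0 : ℂ) 1
  have hm : ContinuousMap.restrict K ⟨g, g.continuous⟩ ∈
      (polynomialFunctions K).starClosure.topologicalClosure := by
    rw [polynomialFunctions.starClosure_topologicalClosure]; trivial
  obtain ⟨G, hG, hd⟩ := Metric.mem_closure_iff.mp hm δ hδ
  rw [polynomialFunctions.starClosure_eq_adjoin_X] at hG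
  have : ∃ q, Pl q ∧ ∀ z : K, G z = q z := by
    refine StarAlgebra.adjoin_induction (p := fun G _ => ∃ q, Pl q ∧ ∀ z : K, G z = q z)
      ?_ (fun r => ⟨_, .const r, fun z => rfl⟩) ?_ ?_ ?_ hG
    · rintro _ rfl
      exact ⟨_, .id, fun z => by simp⟩
    · rintro _ _ _ _ ⟨_, a1, a⟩ ⟨_, b1, b⟩
      exact ⟨_, a1.add b1, fun z => by simp [a, b]⟩
    · rintro _ _ _ _ ⟨_, a1, a⟩ ⟨_, b1, b⟩
      exact ⟨_, a1.mul b1, fun z => by simp [a, b]⟩
    · rintro _ _ ⟨_, a1, a⟩
      exact ⟨_, a1.conj, fun z => by simp [a]⟩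
  obtain ⟨q, hq, e⟩ := this
  have hg : L2 g := (Bd.of_cont g.continuous).l2
  refine ⟨q, hq, ?_⟩
  have h2 := nn_add_le (hx.minus hg) (hg.minus hq.l2)
  simp only [sub_add_sub_cancel] at h2
  have h3 : nn (fun z => g z - q z) ≤ nn fun _ => δ * 1 :=
    nn_mono (Bd.const _).l2 fun z hz _ => by
      have := (ContinuousMap.dist_lt_iff hδ).mp hd ⟨z, ball_subset_closedBall hz⟩
      rw [e, dist_eq_norm] at this
      simpa [abs_of_pos hδ] using this.le
  rw [nn_cmul, norm_real, Real.norm_of_nonneg hδ.le, Real.sq_sqrt (by positivity)] at h3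
  have h4 : ε / 4 / (v + 1) * v ≤ ε / 4 := by
    rw [div_mul_eq_mul_div, div_le_iff₀ (by positivity)]; nlinarith
  have h5 : nn (fun z => x z - g z) ≤ ε / 4 := by simpa [nn] using h1
  linarith

end Vale.Agent.P071
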