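import Vale.Agent.P071.Defs

/-! Wirtinger calculus, integration by parts, and the interface between the modules. -/

namespace Vale.Agent.P071

open MeasureTheory Complex Set Metric Filter Topology
open scoped ComplexConjugate

/-- the unit disc -/
abbrev D : Set ℂ := ball 0 1

/-- the real linear map `h ↦ A h + B conj h` -/
noncomputable def wl (A B : ℂ) : ℂ →L[ℝ] ℂ :=
  A • ContinuousLinearMap.id ℝ ℂ + B • (conjCLE : ℂ →L[ℝ] ℂ)

@[simp] theorem wl_apply (A B h : ℂ) : wl A B h = A * h + B * conj h := by simp [wl]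

/-- `F` has Wirtinger derivatives `A = ∂F/∂z` and `B = ∂F/∂(conj z)` at `z`. -/
def HasW (F : ℂ → ℂ) (z A B : ℂ) : Prop := HasFDerivAt F (wl A B) z

/-- square integrable on the disc -/
abbrev L2 (x : ℂ → ℂ) : Prop := MemLp x 2 (volume.restrict D)

/-- test functions on the disc -/
structure Test (a A B : ℂ → ℂ) : Prop where
  w : ∀ z ∈ D, HasW a z (A z) (B z)
  bd : ∃ C, ∀ z ∈ D, ‖a z‖ ≤ C
  mA : L2 A
  mB : L2 B

/-- the problem transplanted to the disc by the conformal map `f`; `w = ∂u/∂z` -/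
structure Disc (μ : ℝ) (f : ℂ → ℂ) (u : ℂ → ℝ) (w w₁ : ℂ → ℂ) : Prop where
  hf : DifferentiableOn ℂ f D
  fb : ∃ C, ∀ z ∈ D, ‖f z‖ ≤ C
  ne : ∀ z ∈ D, deriv f z ≠ 0
  mf : L2 (deriv f)
  hu : ∀ z ∈ D, HasW (fun z => (u z : ℂ)) z (w z) (conj (w z))
  hw : ∀ z ∈ D, HasW w z (w₁ z) (-(μ / 4 * ‖deriv f z‖ ^ 2 * u z : ℝ))
  ub : ∃ C, ∀ z ∈ D, |u z| ≤ C
  mw : L2 w
  P : ∀ a A B, Test a A B → ∫ z in D, (‖deriv f z‖ ^ 2 : ℝ) * a z = 0 →
    μ * ∫ z in D, ‖deriv f z‖ ^ 2 * ‖a z‖ ^ 2 ≤ 2 * ∫ z in D, (‖A z‖ ^ 2 + ‖B z‖ ^ 2)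
  N : ∀ a A B, Test a A B → 2 * ∫ z in D, (w z * B z + conj (w z) * A z) =
    μ * ∫ z in D, (‖deriv f z‖ ^ 2 * u z : ℝ) * a z
  mom : ∀ c : ℂ, (∫ z in D, ‖deriv f z‖ ^ 2) ^ 2 ≤
    2 * Real.pi * ∫ z in D, ‖deriv f z‖ ^ 2 * ‖f z - c‖ ^ 2
  berg : ∀ a ∈ D, Real.pi * (‖deriv f a‖ ^ 2 * (1 - ‖a‖ ^ 2) ^ 2) ≤ ∫ z in D, ‖deriv f z‖ ^ 2

/-- a conformal map of the disc onto `Ω` with inverse `ψ` -/
structure Conf (Ω : Set ℂ) (f ψ : ℂ → ℂ) : Prop where
  hf : DifferentiableOn ℂ f D
  hψ : DifferentiableOn ℂ ψ Ω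
  mf : MapsTo f D Ω
  mψ : MapsTo ψ Ω D
  l : ∀ z ∈ D, ψ (f z) = z
  r : ∀ x ∈ Ω, f (ψ x) = x

/-- Module R: the Riemann mapping theorem. -/
def RiemannStmt : Prop :=
  ∀ Ω : Set ℂ, IsOpen Ω → IsSimplyConnected Ω → Bornology.IsBounded Ω → ∀ x ∈ Ω,
    ∃ f ψ, Conf Ω f ψ ∧ f 0 = x

/-- Module T: transfer to the disc. -/
def TransferStmt : Prop :=
  ∀ (Ω : Set ℂ) (f ψ : ℂ → ℂ) (u : ℂ → ℝ), IsOpen Ω → Bornology.IsBounded Ω → Conf Ω f ψ →
    Eig Ω u → ContDiffOn ℝ 2 u Ω → ContinuousOn u (closure Ω) →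
    ∃ w w₁, Disc (mu1 Ω) f (fun z => u (f z)) w w₁ ∧
      ∀ z ∈ D, (w z = 0 ↔ fderiv ℝ u (f z) = 0)

variable {F G : ℂ → ℂ} {z A B A' B' : ℂ}

theorem HasW.of_eq (h : HasW F z A B) (hA : A' = A) (hB : B' = B) : HasW F z A' B' := by
  rwa [hA, hB]

theorem HasW.congr (h : HasW F z A B) (e : G =ᶠ[𝓝 z] F) : HasW G z A B :=
  HasFDerivAt.congr_of_eventuallyEq h e

theorem HasW.cont (h : HasW F z A B) : ContinuousAt F z := HasFDerivAt.continuousAt h

theorem HasW.unique (h : HasW F z A B) (h' : HasW F z A' B') : A = A' ∧ B = B' := by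
  have e := HasFDerivAt.unique h h'
  have e1 := congrArg (· 1) e
  have e2 := congrArg (· I) e
  simp only [wl_apply, map_one, mul_one, conj_I] at e1 e2
  constructor
  · linear_combination (exp := 1) e1 / 2 - I / 2 * e2 + (A - B - A' + B') / 2 * I_mul_I
  · linear_combination (exp := 1) e1 / 2 + I / 2 * e2 - (A - B - A' + B') / 2 * I_mul_I

theorem exists_wl (L : ℂ →L[ℝ] ℂ) : L = wl ((L 1 - I * L I) / 2) ((L 1 + I * L I) / 2) := by
  ext h
  have : L h = h.re * L 1 + h.im * L I := by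
    conv_lhs => rw [show h = h.re • (1 : ℂ) + h.im • I by simp [re_add_im]]
    rw [map_add, map_smul, map_smul, real_smul, real_smul]
  rw [this, wl_apply]
  apply Complex.ext <;> simp <;> ring

theorem hasW_const (c z : ℂ) : HasW (fun _ => c) z 0 0 :=
  (hasFDerivAt_const c z).congr_fderiv (by ext; simp)

theorem hasW_of (h : HasDerivAt F A z) : HasW F z A 0 :=
  (h.hasFDerivAt.restrictScalars ℝ).congr_fderiv (by ext; simp [mul_comm])

theorem HasW.hasDerivAt (h : HasW F z A 0) : HasDerivAt F A z :=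
  (hasFDerivAt_of_restrictScalars ℝ (f' := ContinuousLinearMap.toSpanSingleton ℂ A) h (by
    ext; simp [mul_comm])).hasDerivAt.congr_deriv (by simp)

theorem hasW_id (z : ℂ) : HasW (fun z => z) z 1 0 := hasW_of (hasDerivAt_id z)

theorem HasW.add (h : HasW F z A B) (h' : HasW G z A' B') :
    HasW (fun z => F z + G z) z (A + A') (B + B') :=
  (HasFDerivAt.add h h').congr_fderiv (by ext; simp; ring)

theorem HasW.mul (h : HasW F z A B) (h' : HasW G z A' B') :
    HasW (fun z => F z * G z) z (A * G z + F z * A') (B * G z + F z * B') :=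
  (HasFDerivAt.mul h h').congr_fderiv (by ext; simp; ring)

theorem HasW.cmul (c : ℂ) (h : HasW F z A B) : HasW (fun z => c * F z) z (c * A) (c * B) :=
  ((hasW_const c z).mul h).of_eq (by ring) (by ring)

theorem HasW.neg (h : HasW F z A B) : HasW (fun z => -F z) z (-A) (-B) := by
  simpa using h.cmul (-1)

theorem HasW.sub (h : HasW F z A B) (h' : HasW G z A' B') :
    HasW (fun z => F z - G z) z (A - A') (B - B') := by
  simpa [sub_eq_add_neg] using h.add h'.neg

theorem HasW.conj (h : HasW F z A B) : HasW (fun z => conj (F z)) z (conj B) (conj A) :=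
  ((conjCLE : ℂ →L[ℝ] ℂ).hasFDerivAt.comp z h).congr_fderiv (by ext; simp; ring)

theorem hasW_conj (z : ℂ) : HasW (fun z => conj z) z 0 1 := by simpa using (hasW_id z).conj

theorem HasW.comp {g : ℂ → ℂ} {c : ℂ} (h : HasW F z A B) (hg : HasDerivAt g c (F z)) :
    HasW (fun z => g (F z)) z (c * A) (c * B) :=
  ((hg.hasFDerivAt.restrictScalars ℝ).comp z h).congr_fderiv (by ext; simp; ring)

theorem HasW.comp_holo {g : ℂ → ℂ} {c : ℂ} (h : HasW F (g z) A B) (hg : HasDerivAt g c z) :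
    HasW (fun z => F (g z)) z (A * c) (B * conj c) :=
  (HasFDerivAt.comp z h (hg.hasFDerivAt.restrictScalars ℝ)).congr_fderiv (by ext; simp; ring)

/-- integration by parts for compact support -/
theorem ibp_compact {Φ A B : ℂ → ℂ} (hc : Continuous Φ) (hK : HasCompactSupport Φ)
    (hd : ∀ z, z ≠ 0 → HasW Φ z (A z) (B z)) (hB : Integrable B) : ∫ z, B z = 0 := by
  obtain ⟨R, hR0, hR⟩ := hK.isCompact.isBounded.subset_ball_lt 0 0
  have h0 : ∀ z, R ≤ ‖z‖ → Φ z = 0 := fun z hz => image_eq_zero_of_notMem_tsupport fun h => by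
    simpa [hz.not_gt] using hR h
  have hB0 : ∀ z, R ≤ ‖z‖ → B z = 0 := fun z hz => by
    have hz0 : z ≠ 0 := by rintro rfl; simp at hz; linarith
    refine ((hd z hz0).unique ((hasW_const 0 z).congr ?_)).2
    exact notMem_tsupport_iff_eventuallyEq.mp fun h => by simpa [hz.not_gt] using hR h
  have hf : ∀ z, I • wl (A z) (B z) 1 - wl (A z) (B z) I = 2 * I * B z := fun z => by
    simp; ring
  have key := integral_boundary_rect_of_hasFDerivAt_real_off_countable Φ
    (fun z => wl (A z) (B z)) ⟨-R, -R⟩ ⟨R, R⟩ {0} (countable_singleton _) hc.continuousOn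
    (fun z hz => hd z hz.2) (by simp only [hf]; exact (hB.const_mul _).integrableOn)
  have n1 : ∀ x y : ℝ, |y| = R → Φ (x + y * I) = 0 := fun x y hy =>
    h0 _ (hy ▸ by simpa using abs_im_le_norm (x + y * I))
  have n2 : ∀ x y : ℝ, |x| = R → Φ (x + y * I) = 0 := fun x y hx =>
    h0 _ (hx ▸ by simpa using abs_re_le_norm (x + y * I))
  simp only [hf, n1 _ R (abs_of_pos hR0), n1 _ (-R) (by rw [abs_neg, abs_of_pos hR0]),
    n2 R _ (abs_of_pos hR0), n2 (-R) _ (by rw [abs_neg, abs_of_pos hR0]),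
    intervalIntegral.integral_zero, smul_zero, sub_zero, add_zero,
    intervalIntegral.integral_const_mul] at key
  have hle : -R ≤ R := by linarith
  have h2 : ∫ z, B z = ∫ x in -R..R, ∫ y in -R..R, B (x + y * I) := by
    rw [← volume_preserving_equiv_real_prod.symm.integral_comp', Measure.volume_eq_prod,
      integral_prod _ (by
        rw [← Measure.volume_eq_prod]
        exact (volume_preserving_equiv_real_prod.symm.integrable_comp_emb
          (MeasurableEquiv.measurableEmbedding _)).mpr hB),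
      intervalIntegral.integral_of_le hle, setIntegral_eq_integral_of_forall_compl_eq_zero]
    · refine integral_congr_ae (.of_forall fun x => ?_)
      beta_reduce
      rw [intervalIntegral.integral_of_le hle, setIntegral_eq_integral_of_forall_compl_eq_zero]
      · simp [measurableEquivRealProd, equivRealProdCLM_symm_apply]
      · intro y hy
        refine hB0 _ (le_trans ?_ (abs_im_le_norm _))
        simp only [mem_Ioc, not_and_or, not_lt, not_le] at hy
        simp
        rcases hy with hy | hy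
        · exact le_abs.mpr (.inr (by linarith))
        · exact le_abs.mpr (.inl hy.le)
    · intro x hx
      refine (intervalIntegral.integral_congr fun y _ => ?_).trans intervalIntegral.integral_zero
      refine hB0 _ (le_trans ?_ (abs_re_le_norm _))
      simp only [mem_Ioc, not_and_or, not_lt, not_le] at hx
      simp
      rcases hx with hx | hx
      · exact le_abs.mpr (.inr (by linarith))
      · exact le_abs.mpr (.inl hx.le)
  rw [h2]
  simpa using key.symm

end Vale.Agent.P071
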