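import Vale.Agent.P071.Spec

/-! Weak and classical derivatives on the domain. -/

namespace Vale.Agent.P071.Tr

open MeasureTheory Complex Set Metric Filter Topology
open scoped ComplexConjugate

variable {Ω : Set ℂ}

/-- the classical gradient -/
noncomputable def gr (b : ℂ → ℝ) (x : ℂ) : ℂ :=
  (fderiv ℝ b x 1 : ℝ) + I * (fderiv ℝ b x I : ℝ)

theorem lin_apply (L : ℂ →L[ℝ] ℝ) (e : ℂ) : L e = e.re * L 1 + e.im * L I := by
  conv_lhs => rw [show e = e.re • (1 : ℂ) + e.im • I by simp [re_add_im]]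
  rw [map_add, map_smul, map_smul, smul_eq_mul, smul_eq_mul]

theorem inner_gr (b : ℂ → ℝ) (x e : ℂ) : inner ℝ (gr b x) e = fderiv ℝ b x e := by
  rw [lin_apply (fderiv ℝ b x) e, Complex.inner]
  simp [gr]

theorem meas_gr (b : ℂ → ℝ) : Measurable (gr b) :=
  (measurable_ofReal.comp (measurable_fderiv_apply_const ℝ b 1)).add
    ((measurable_ofReal.comp (measurable_fderiv_apply_const ℝ b I)).const_mul I)

theorem gr_eq_zero {b : ℂ → ℝ} {x : ℂ} : gr b x = 0 ↔ fderiv ℝ b x = 0 := by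
  refine ⟨fun h => ?_, fun h => by simp [gr, h]⟩
  ext e
  rw [← inner_gr, h]; simp

/-- Wirtinger derivative of a real function -/
theorem hasW_real {b : ℂ → ℝ} {x : ℂ} (hb : DifferentiableAt ℝ b x) :
    HasW (fun z => (b z : ℂ)) x (conj (gr b x) / 2) (gr b x / 2) := by
  refine ((ofRealCLM.hasFDerivAt).comp x hb.hasFDerivAt).congr_fderiv ?_
  ext e
  simp only [ContinuousLinearMap.comp_apply, ofRealCLM_apply, wl_apply]
  rw [lin_apply (fderiv ℝ b x) e]
  apply Complex.ext <;> simp [gr] <;> ring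

theorem int_cont {k φ : ℂ → ℝ} (hk : ContinuousOn k Ω) (hφ : Continuous φ)
    (hc : HasCompactSupport φ) (hs : tsupport φ ⊆ Ω) : IntegrableOn (fun z => k z * φ z) Ω := by
  have h1 : IntegrableOn (fun z => k z * φ z) (tsupport φ) :=
    ((hk.mono hs).mul hφ.continuousOn).integrableOn_compact hc
  exact (h1.integrable_of_forall_notMem_eq_zero fun x hx => by
    simp [image_eq_zero_of_notMem_tsupport hx]).integrableOn

theorem ibp {a a' φ : ℂ → ℝ} {e : ℂ} (hs : tsupport φ ⊆ Ω) (hφ : Differentiable ℝ φ)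
    (ha : ∀ z ∈ Ω, HasLineDerivAt ℝ a (a' z) z e)
    (h1 : IntegrableOn (fun z => a' z * φ z) Ω)
    (h2 : IntegrableOn (fun z => a z * fderiv ℝ φ z e) Ω)
    (h3 : IntegrableOn (fun z => a z * φ z) Ω) :
    ∫ z in Ω, a z * fderiv ℝ φ z e = -∫ z in Ω, a' z * φ z := by
  have z1 : ∀ z, z ∉ Ω → φ z = 0 := fun z hz => image_eq_zero_of_notMem_tsupport fun h => hz (hs h)
  have z2 : ∀ z, z ∉ Ω → fderiv ℝ φ z = 0 := fun z hz =>
    fderiv_of_notMem_tsupport ℝ fun h => hz (hs h)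
  rw [setIntegral_eq_integral_of_forall_compl_eq_zero fun z hz => by simp [z2 z hz],
    setIntegral_eq_integral_of_forall_compl_eq_zero fun z hz => by simp [z1 z hz]]
  exact integral_bilinear_hasLineDerivAt_right_eq_neg_left_of_integrable
    (B := ContinuousLinearMap.mul ℝ ℝ) (f := a) (f' := a') (g := φ)
    (g' := fun z => fderiv ℝ φ z e) (v := e)
    (h1.integrable_of_forall_notMem_eq_zero fun z hz => by simp [z1 z hz])
    (h2.integrable_of_forall_notMem_eq_zero fun z hz => by simp [z2 z hz])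
    (h3.integrable_of_forall_notMem_eq_zero fun z hz => by simp [z1 z hz])
    (fun x hx => ha x (hs hx)) (fun x _ => (hφ x).hasFDerivAt.hasLineDerivAt e)

theorem cont_fd {φ : ℂ → ℝ} (hφ : ContDiff ℝ (⊤ : ℕ∞) φ) (e : ℂ) :
    Continuous fun z => fderiv ℝ φ z e :=
  (hφ.continuous_fderiv (by simp)).clm_apply continuous_const

theorem l2_inner {g : ℂ → ℂ} (hg : MemLp g 2 (volume.restrict Ω)) (e : ℂ) :
    MemLp (fun z => inner ℝ (g z) e) 2 (volume.restrict Ω) := hg.inner_const e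

/-- classical implies weak -/
theorem h1_of {a : ℂ → ℝ} (ha : ∀ z ∈ Ω, DifferentiableAt ℝ a z)
    (h0 : MemLp a 2 (volume.restrict Ω)) (h1 : MemLp (gr a) 2 (volume.restrict Ω)) :
    H1 Ω a (gr a) := by
  refine ⟨h0, h1, fun φ hφ hc hs e => ?_⟩
  have m0 : MemLp φ 2 (volume.restrict Ω) :=
    (hφ.continuous.memLp_of_hasCompactSupport hc).restrict Ω
  have m1 : MemLp (fun z => fderiv ℝ φ z e) 2 (volume.restrict Ω) :=
    ((cont_fd hφ e).memLp_of_hasCompactSupport (hc.fderiv_apply ℝ e)).restrict Ω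
  refine ibp hs (hφ.differentiable (by simp)) (fun z hz => ?_)
    ((l2_inner h1 e).integrable_mul m0) (h0.integrable_mul m1) (h0.integrable_mul m0)
  rw [inner_gr]
  exact (ha z hz).hasFDerivAt.hasLineDerivAt e

theorem h1_test {φ : ℂ → ℝ} (hφ : ContDiff ℝ (⊤ : ℕ∞) φ) (hc : HasCompactSupport φ) :
    H1 Ω φ (gr φ) := by
  refine h1_of (fun z _ => hφ.differentiable (by simp) z)
    ((hφ.continuous.memLp_of_hasCompactSupport hc).restrict Ω) ?_
  refine (Continuous.memLp_of_hasCompactSupport ?_ ?_).restrict Ω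
  · exact (continuous_ofReal.comp (cont_fd hφ 1)).add
      (continuous_const.mul (continuous_ofReal.comp (cont_fd hφ I)))
  · exact hc.mono' fun z hz => by
      by_contra h
      exact hz (by simp [gr, fderiv_of_notMem_tsupport ℝ h])

theorem ae_zero (hΩ : IsOpen Ω) {k : ℂ → ℝ} (hk : LocallyIntegrableOn k Ω)
    (h : ∀ φ : ℂ → ℝ, ContDiff ℝ (⊤ : ℕ∞) φ → HasCompactSupport φ → tsupport φ ⊆ Ω →
      ∫ z in Ω, k z * φ z = 0) : k =ᵐ[volume.restrict Ω] 0 := by
  refine (ae_restrict_iff' hΩ.measurableSet).mpr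
    (hΩ.ae_eq_zero_of_integral_contDiff_smul_eq_zero hk fun φ hφ hc hs => ?_)
  rw [← h φ hφ hc hs, setIntegral_eq_integral_of_forall_compl_eq_zero fun z hz => by
    simp [image_eq_zero_of_notMem_tsupport fun h => hz (hs h)]]
  simp [mul_comm]

variable {u : ℂ → ℝ}

theorem c1 (hΩ : IsOpen Ω) (hu : ContDiffOn ℝ 2 u Ω) : ContDiffOn ℝ 1 (fderiv ℝ u) Ω :=
  hu.fderiv_of_isOpen hΩ (by norm_num)

theorem dif (hΩ : IsOpen Ω) (hu : ContDiffOn ℝ 2 u Ω) {z : ℂ} (hz : z ∈ Ω) :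
    DifferentiableAt ℝ u z :=
  (hu.contDiffAt (hΩ.mem_nhds hz)).differentiableAt (by norm_num)

theorem dif2 (hΩ : IsOpen Ω) (hu : ContDiffOn ℝ 2 u Ω) {z : ℂ} (hz : z ∈ Ω) (e : ℂ) :
    HasFDerivAt (fun x => fderiv ℝ u x e) ((fderiv ℝ (fderiv ℝ u) z).flip e) z := by
  have h := (((c1 hΩ hu).contDiffAt (hΩ.mem_nhds hz)).differentiableAt (by norm_num)).hasFDerivAt
  exact (h.clm_apply (hasFDerivAt_const e z)).congr_fderiv (by ext; simp)

theorem cont1 (hΩ : IsOpen Ω) (hu : ContDiffOn ℝ 2 u Ω) (e : ℂ) :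
    ContinuousOn (fun x => fderiv ℝ u x e) Ω :=
  (c1 hΩ hu).continuousOn.clm_apply continuousOn_const

theorem cont2 (hΩ : IsOpen Ω) (hu : ContDiffOn ℝ 2 u Ω) (e e' : ℂ) :
    ContinuousOn (fun x => fderiv ℝ (fderiv ℝ u) x e e') Ω :=
  (((c1 hΩ hu).continuousOn_fderiv_of_isOpen hΩ le_rfl).clm_apply continuousOn_const).clm_apply
    continuousOn_const

/-- the weak gradient of a smooth function is the classical one -/
theorem weak_eq (hΩ : IsOpen Ω) (hb : Bornology.IsBounded Ω) (hu : ContDiffOn ℝ 2 u Ω)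
    {g : ℂ → ℂ} (h : H1 Ω u g) : g =ᵐ[volume.restrict Ω] gr u := by
  haveI : IsFiniteMeasure (volume.restrict Ω) := ⟨by simpa using hb.measure_lt_top⟩
  have key : ∀ e : ℂ, (fun z => inner ℝ (g z) e - fderiv ℝ u z e) =ᵐ[volume.restrict Ω] 0 := by
    intro e
    refine ae_zero hΩ ?_ fun φ hφ hc hs => ?_
    · exact (IntegrableOn.locallyIntegrableOn ((l2_inner h.2.1 e).integrable (by norm_num))).sub
        ((cont1 hΩ hu e).locallyIntegrableOn hΩ.measurableSet)
    · have i1 := int_cont (cont1 hΩ hu e) hφ.continuous hc hs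
      have i2 : IntegrableOn (fun z => inner ℝ (g z) e * φ z) Ω :=
        (l2_inner h.2.1 e).integrable_mul (q := 2)
          ((hφ.continuous.memLp_of_hasCompactSupport hc).restrict Ω)
      have e1 := ibp hs (hφ.differentiable (by simp))
        (fun z hz => (dif hΩ hu hz).hasFDerivAt.hasLineDerivAt e) i1
        (int_cont hu.continuousOn (cont_fd hφ e) (hc.fderiv_apply ℝ e)
          ((tsupport_fderiv_apply_subset ℝ e).trans hs))
        (int_cont hu.continuousOn hφ.continuous hc hs)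
      have e2 := h.2.2 φ hφ hc hs e
      simp only [sub_mul]
      rw [integral_sub i2 i1]
      linarith
  filter_upwards [key 1, key I] with z h1 h2
  simp only [Complex.inner, Pi.zero_apply] at h1 h2
  apply Complex.ext <;> simp [gr] at h1 h2 ⊢ <;> linarith

/-- the eigenvalue equation holds pointwise -/
theorem lap (hΩ : IsOpen Ω) (hu : ContDiffOn ℝ 2 u Ω) {μ : ℝ}
    (h : ∀ v k, H1 Ω v k → ∫ z in Ω, inner ℝ (gr u z) (k z) = μ * ∫ z in Ω, u z * v z)
    {x : ℂ} (hx : x ∈ Ω) :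
    fderiv ℝ (fderiv ℝ u) x 1 1 + fderiv ℝ (fderiv ℝ u) x I I + μ * u x = 0 := by
  have hc0 : ContinuousOn (fun x => fderiv ℝ (fderiv ℝ u) x 1 1 + fderiv ℝ (fderiv ℝ u) x I I +
      μ * u x) Ω :=
    ((cont2 hΩ hu 1 1).add (cont2 hΩ hu I I)).add (continuousOn_const.mul hu.continuousOn)
  refine Measure.eqOn_open_of_ae_eq (ae_zero hΩ (hc0.locallyIntegrableOn hΩ.measurableSet)
    fun φ hφ hc hs => ?_) hΩ hc0 continuousOn_const hx
  have j : ∀ e : ℂ, IntegrableOn (fun z => fderiv ℝ u z e * fderiv ℝ φ z e) Ω := fun e =>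
    int_cont (cont1 hΩ hu e) (cont_fd hφ e) (hc.fderiv_apply ℝ e)
      ((tsupport_fderiv_apply_subset ℝ e).trans hs)
  have i : ∀ e : ℂ, IntegrableOn (fun z => fderiv ℝ (fderiv ℝ u) z e e * φ z) Ω := fun e =>
    int_cont (cont2 hΩ hu e e) hφ.continuous hc hs
  have k : ∀ e : ℂ, ∫ z in Ω, fderiv ℝ u z e * fderiv ℝ φ z e =
      -∫ z in Ω, fderiv ℝ (fderiv ℝ u) z e e * φ z := fun e =>
    ibp hs (hφ.differentiable (by simp)) (fun z hz => (dif2 hΩ hu hz e).hasLineDerivAt e) (i e)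
      (j e) (int_cont (cont1 hΩ hu e) hφ.continuous hc hs)
  have i3 := int_cont hu.continuousOn hφ.continuous hc hs
  have e1 := h φ (gr φ) (h1_test hφ hc)
  have e2 : ∫ z in Ω, inner ℝ (gr u z) (gr φ z) = (∫ z in Ω, fderiv ℝ u z 1 * fderiv ℝ φ z 1) +
      ∫ z in Ω, fderiv ℝ u z I * fderiv ℝ φ z I := by
    rw [← integral_add (j 1) (j I)]
    refine integral_congr_ae (.of_forall fun z => ?_)
    simp only [Complex.inner]
    simp [gr]; ring
  simp only [add_mul, mul_assoc]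
  have i4 : IntegrableOn (fun z => fderiv ℝ (fderiv ℝ u) z 1 1 * φ z +
      fderiv ℝ (fderiv ℝ u) z I I * φ z) Ω := (i 1).add (i I)
  rw [integral_add i4 (i3.const_mul μ), integral_add (i 1) (i I),
    integral_const_mul]
  linarith [k 1, k I]

/-- second Wirtinger derivative -/
theorem hasW_gr (hΩ : IsOpen Ω) (hu : ContDiffOn ℝ 2 u Ω) {x : ℂ} (hx : x ∈ Ω) :
    ∃ W₁, HasW (fun z => conj (gr u z) / 2) x W₁
      ((fderiv ℝ (fderiv ℝ u) x 1 1 + fderiv ℝ (fderiv ℝ u) x I I : ℝ) / 4) := by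
  have h1 := hasW_real (dif2 hΩ hu hx 1).differentiableAt
  have h2 := hasW_real (dif2 hΩ hu hx I).differentiableAt
  have hs : fderiv ℝ (fderiv ℝ u) x 1 I = fderiv ℝ (fderiv ℝ u) x I 1 :=
    (hu.contDiffAt (hΩ.mem_nhds hx)).isSymmSndFDerivAt (by simp) 1 I
  refine ⟨_, (((h1.sub (h2.cmul I)).cmul (1 / 2)).congr (.of_forall fun z => ?_)).of_eq rfl ?_⟩
  · simp [gr]; ring
  · simp only [gr, (dif2 hΩ hu hx 1).fderiv, (dif2 hΩ hu hx I).fderiv,
      ContinuousLinearMap.flip_apply, hs]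
    push_cast
    linear_combination (fderiv ℝ (fderiv ℝ u) x I I : ℂ) / 4 * I_mul_I

end Vale.Agent.P071.Tr
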